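import Mathlib

/-!
Ring-theoretic part: character idempotents and the construction of a one-sided inverse.
-/

namespace Vale.Agent.Tri

open Finset

universe u

theorem ring_lemma {R : Type u} [Ring R] {I A : Type} [Fintype I] [Fintype A] [DecidableEq A]
    (e : R) (he : e * e = e) (hc : ∀ x, e * x = x * e) (p : I → R) (hsum : ∑ i, p i * e = e)
    (hne : ∀ i, p i * e ≠ 0) (conj : ∀ i j, ∃ u v, u * p j * v * e = p i * e) (χ : A → I)
    (r c : A → R) (hrc : ∀ α β, r α * c β = if α = β then p (χ α) else 0)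
    (hcard : Fintype.card I < Fintype.card A) : ∃ a b : R, a * b = 1 ∧ b * a ≠ 1 := by
  classical
  obtain ⟨f⟩ : Nonempty (Option I ↪ A) :=
    Function.Embedding.nonempty_of_card_le (by rw [Fintype.card_option]; omega)
  choose u v huv using conj
  let a0 := ∑ i, u i (χ (f (some i))) * r (f (some i))
  let b0 := ∑ i, c (f (some i)) * v i (χ (f (some i)))
  have h1 : a0 * b0 * e = e := by
    simp only [a0, b0]
    rw [sum_mul_sum, sum_mul]
    conv_rhs => rw [← hsum]
    refine sum_congr rfl fun i _ => ?_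
    rw [sum_eq_single i]
    · rw [← huv i (χ (f (some i))), mul_assoc (u _ _), ← mul_assoc (r _), hrc, if_pos rfl,
        ← mul_assoc]
    · intro j _ hj
      rw [mul_assoc (u _ _), ← mul_assoc (r _), hrc, if_neg (by simpa using hj.symm)]
      simp
    · simp
  have h2 : a0 * c (f none) = 0 := by
    simp only [a0]
    rw [sum_mul]
    refine sum_eq_zero fun i _ => ?_
    rw [mul_assoc, hrc, if_neg (by simp), mul_zero]
  have h3 : e * (1 - e) = 0 := by rw [mul_sub, mul_one, he, sub_self]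
  have h4 : (1 - e) * e = 0 := by rw [sub_mul, one_mul, he, sub_self]
  refine ⟨a0 * e + (1 - e), b0 * e + (1 - e), ?_, fun h => hne (χ (f none)) ?_⟩
  · have e1 : a0 * e * (b0 * e) = e := by
      rw [mul_assoc, ← mul_assoc e, hc b0, mul_assoc b0, he, ← mul_assoc, h1]
    have e2 : a0 * e * (1 - e) = 0 := by rw [mul_assoc, h3, mul_zero]
    have e3 : (1 - e) * (b0 * e) = 0 := by rw [← hc b0, ← mul_assoc, h4, zero_mul]
    have e4 : (1 - e) * (1 - e) = 1 - e := by rw [mul_sub, mul_one, h4, sub_zero]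
    rw [add_mul, mul_add, mul_add, e1, e2, e3, e4]; abel
  · have e1 : (a0 * e + (1 - e)) * (c (f none) * e) = 0 := by
      rw [add_mul, mul_assoc, ← mul_assoc e, hc (c _), mul_assoc (c _), he, ← mul_assoc, h2,
        ← hc (c _), ← mul_assoc, h4]
      simp
    have e2 : c (f none) * e = 0 := by
      rw [← one_mul (c (f none) * e), ← h, mul_assoc, e1, mul_zero]
    have := hrc (f none) (f none)
    rw [if_pos rfl] at this
    rw [← this, mul_assoc, e2, mul_zero]

section idem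
variable {K : Type} [Field K] {Γ : Type} [CommGroup Γ] [Fintype Γ] {R : Type u} [Ring R]
  [Algebra K R] (ρ : Γ →* R)

/-- the idempotent of a character -/
noncomputable def idem (χ : Γ →* Kˣ) : R :=
  (Fintype.card Γ : K)⁻¹ • ∑ g, ((χ g)⁻¹ : Kˣ).val • ρ g

theorem mul_idem (χ : Γ →* Kˣ) (g : Γ) : ρ g * idem ρ χ = (χ g : K) • idem ρ χ := by
  unfold idem
  have : ρ g * ∑ x, ((χ x)⁻¹ : Kˣ).val • ρ x = (χ g : K) • ∑ x, ((χ x)⁻¹ : Kˣ).val • ρ x := by
    rw [mul_sum, smul_sum, ← Equiv.sum_comp (Equiv.mulLeft g) fun x =>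
      (χ g : K) • ((χ x)⁻¹ : Kˣ).val • ρ x]
    refine sum_congr rfl fun x _ => ?_
    simp only [Equiv.coe_mulLeft, map_mul, mul_smul_comm, smul_smul]
    congr 1
    simp only [mul_inv_rev, Units.val_mul, Units.val_inv_eq_inv_val]
    field_simp
  rw [mul_smul_comm, this, smul_comm]

theorem idem_mul_of (hΓ : (Fintype.card Γ : K) ≠ 0) (χ ψ : Γ →* Kˣ) [Decidable (χ = ψ)] (x : R)
    (hx : ∀ g, ρ g * x = (ψ g : K) • x) : idem ρ χ * x = if χ = ψ then x else 0 := by
  unfold idem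
  rw [smul_mul_assoc, sum_mul]
  simp_rw [smul_mul_assoc, hx, smul_smul]
  rw [← sum_smul, smul_smul]
  split_ifs with h
  · subst h
    simp [hΓ]
  · have := sum_hom_units_eq_zero ((Units.coeHom K).comp (χ⁻¹ * ψ)) (by
      intro h1
      apply h
      ext g
      have := DFunLike.congr_fun h1 g
      simp only [MonoidHom.comp_apply, MonoidHom.mul_apply, MonoidHom.inv_apply,
        Units.coeHom_apply, MonoidHom.one_apply, Units.val_eq_one] at this
      rw [inv_mul_eq_one.1 this])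
    simp only [MonoidHom.comp_apply, MonoidHom.mul_apply, MonoidHom.inv_apply,
        Units.coeHom_apply, Units.val_mul] at this
    rw [this]; simp

theorem idem_mul_idem (hΓ : (Fintype.card Γ : K) ≠ 0) (χ ψ : Γ →* Kˣ) [Decidable (χ = ψ)] :
    idem ρ χ * idem ρ ψ = if χ = ψ then idem ρ ψ else 0 :=
  idem_mul_of ρ hΓ χ ψ _ (mul_idem ρ ψ)

theorem sum_idem (hΓ : (Fintype.card Γ : K) ≠ 0) [Fintype (Γ →* Kˣ)]
    [HasEnoughRootsOfUnity K (Monoid.exponent Γ)] : ∑ χ : Γ →* Kˣ, idem ρ χ = 1 := by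
  classical
  unfold idem
  rw [← smul_sum, sum_comm]
  simp_rw [← sum_smul]
  rw [sum_eq_single 1]
  · have : Fintype.card (Γ →* Kˣ) = Fintype.card Γ := by
      rw [Fintype.card_eq_nat_card, Fintype.card_eq_nat_card,
        CommGroup.card_monoidHom_of_hasEnoughRootsOfUnity]
    simp [this, smul_smul, hΓ]
  · intro g _ hg
    obtain ⟨φ, hφ⟩ := CommGroup.exists_apply_ne_one_of_hasEnoughRootsOfUnity Γ K (inv_ne_one.2 hg)
    let ev : (Γ →* Kˣ) →* K :=
      { toFun := fun χ => (χ g⁻¹ : Kˣ)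
        map_one' := by simp
        map_mul' := by intro a b; simp only [MonoidHom.mul_apply, Units.val_mul] }
    have := sum_hom_units_eq_zero ev (by
      intro h
      apply hφ
      have := DFunLike.congr_fun h φ
      exact Units.ext (by simpa [ev] using this))
    simp only [ev, MonoidHom.coe_mk, OneHom.coe_mk, map_inv] at this
    rw [this, zero_smul]
  · simp

end idem

theorem idem_ne_zero {K : Type} [Field K] {Γ : Type} [CommGroup Γ] [Fintype Γ] {H : Type u}
    [Group H] (ι : Γ →* H) (hι : Function.Injective ι) (hΓ : (Fintype.card Γ : K) ≠ 0)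
    (χ : Γ →* Kˣ) : idem ((MonoidAlgebra.of K H).comp ι) χ ≠ 0 := by
  classical
  intro h
  have := congrArg (fun x : MonoidAlgebra K H => x.coeff 1) h
  simp only [idem, MonoidAlgebra.coeff_smul_apply, MonoidAlgebra.coeff_sum, Finsupp.finsetSum_apply,
    MonoidHom.comp_apply, MonoidAlgebra.of_apply, MonoidAlgebra.coeff_single, Finsupp.single_apply] at this
  rw [sum_eq_single 1] at this
  · simp [hΓ] at this
  · intro g _ hg
    rw [if_neg (by rwa [map_eq_one_iff ι hι]), smul_zero]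
  · simp

/-- From a group containing `Γ` to a group with a central copy of `Kˣ` in which all twists of
`Γ` by characters are conjugate. -/
theorem exists_twist {Γ Z : Type} [CommGroup Γ] [CommGroup Z] {G : Type} [Group G] (ι : Γ →* G)
    (hι : Function.Injective ι) :
    ∃ (H : Type) (_ : Group H) (j : G →* H) (ζ : Z →* H) (h : (Γ →* Z) → H),
      (Finite G → Finite Z → Finite H) ∧
      (∀ z x, ζ z * x = x * ζ z) ∧ (∀ g z, j (ι g) * ζ z = 1 → g = 1 ∧ z = 1) ∧
      ∀ χ g, h χ * j (ι g) = j (ι g) * ζ (χ g) * h χ := by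
  classical
  have hρ : ∃ ρ : G → Γ, ∀ g x, ρ (ι g * x) = g * ρ x := by
    have : ∀ x : G, ∃ g : Γ, ι g = x * (QuotientGroup.mk (s := ι.range) x⁻¹).out := by
      intro x
      obtain ⟨⟨_, g, rfl⟩, hg⟩ := QuotientGroup.mk_out_eq_mul ι.range x⁻¹
      exact ⟨g, by rw [hg]; simp⟩
    choose ρ hρ using this
    refine ⟨ρ, fun g x => hι ?_⟩
    rw [map_mul, hρ, hρ, mul_assoc]
    congr 3
    rw [QuotientGroup.eq]
    simp
  obtain ⟨ρ, hρ⟩ := hρ
  let j0 : G →* Equiv.Perm (G × Z) :=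
    { toFun := fun g => (Equiv.mulLeft g).prodCongr (Equiv.refl Z)
      map_one' := by ext x <;> simp
      map_mul' := by intro a b; ext x <;> simp [mul_assoc] }
  let ζ0 : Z →* Equiv.Perm (G × Z) :=
    { toFun := fun z => (Equiv.refl G).prodCongr (Equiv.mulLeft z)
      map_one' := by ext x <;> simp
      map_mul' := by intro a b; ext x <;> simp [mul_assoc] }
  let h0 : (Γ →* Z) → Equiv.Perm (G × Z) := fun χ =>
    { toFun := fun x => (x.1, χ (ρ x.1) * x.2)
      invFun := fun x => (x.1, (χ (ρ x.1))⁻¹ * x.2)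
      left_inv := fun x => by simp
      right_inv := fun x => by simp }
  let H := Subgroup.centralizer (Set.range ζ0)
  refine ⟨H, inferInstance, j0.codRestrict H ?_, ζ0.codRestrict H ?_, fun χ => ⟨h0 χ, ?_⟩,
    fun _ _ => inferInstance, ?_, ?_, ?_⟩
  · rintro g _ ⟨z, rfl⟩
    ext x <;> simp [j0, ζ0]
  · rintro g _ ⟨z, rfl⟩
    rw [← map_mul, ← map_mul, mul_comm]
  · rintro _ ⟨z, rfl⟩
    ext x <;> simp [h0, ζ0, mul_left_comm]
  · intro z x
    exact Subtype.ext (x.2 _ ⟨z, rfl⟩)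
  · intro g z e
    have : (ι g * 1, z * 1) = ((1 : G), (1 : Z)) := congrArg (fun y : H => y.1 (1, 1)) e
    simp only [mul_one, Prod.mk.injEq] at this
    exact ⟨(map_eq_one_iff ι hι).1 this.1, this.2⟩
  · intro χ g
    apply Subtype.ext
    show h0 χ * j0 (ι g) = j0 (ι g) * ζ0 (χ g) * h0 χ
    ext x <;> simp [j0, ζ0, h0, hρ, mul_assoc]

theorem not_df {K : Type} [Field K] [Fintype K] {Γ : Type} [CommGroup Γ] [Fintype Γ]
    (hΓ : (Fintype.card Γ : K) ≠ 0) [HasEnoughRootsOfUnity K (Monoid.exponent Γ)]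
    {G : Type} [Group G] (ι : Γ →* G) (hι : Function.Injective ι) (s : G)
    (ξ : MonoidAlgebra K G) (J : Finset (Γ →* Kˣ)) (hJ : Nat.card Γ < 2 * J.card)
    (lam : (Γ →* Kˣ) → K) (hlam : ∀ χ ∈ J, lam χ ≠ 0)
    (h1 : ∀ χ ∈ J, ξ * idem ((MonoidAlgebra.of K G).comp ι) χ =
      lam χ • idem ((MonoidAlgebra.of K G).comp ι) χ)
    (h2 : ∀ χ ∈ J, ξ * MonoidAlgebra.of K G s * idem ((MonoidAlgebra.of K G).comp ι) χ = 0) :
    ∃ (H : Type) (_ : Group H), (Finite G → Finite H) ∧
      ∃ a b : MonoidAlgebra K H, a * b = 1 ∧ b * a ≠ 1 := by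
  classical
  obtain ⟨H, _, j, ζ, h, hfin, hζ, hinj, hconj⟩ := exists_twist (Z := Kˣ) ι hι
  refine ⟨H, inferInstance, fun hG => hfin hG inferInstance, ?_⟩
  have hcard : Nat.card (Γ →* Kˣ) = Nat.card Γ :=
    CommGroup.card_monoidHom_of_hasEnoughRootsOfUnity Γ K
  have _i : Finite (Γ →* Kˣ) := Nat.finite_of_card_ne_zero (by rw [hcard]; exact Nat.card_pos.ne')
  let _j : Fintype (Γ →* Kˣ) := Fintype.ofFinite _
  have hZ : (Fintype.card Kˣ : K) ≠ 0 := by
    rw [Fintype.card_units, Nat.cast_sub Fintype.card_pos, FiniteField.cast_card_eq_zero]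
    simp
  let o := MonoidAlgebra.of K H
  let Φ := MonoidAlgebra.mapDomainAlgHom K K j
  have hΦ : ∀ g, Φ (MonoidAlgebra.of K G g) = o (j g) := fun g => by simp [Φ, o]
  let ρ : Γ →* MonoidAlgebra K H := o.comp (j.comp ι)
  let E := idem (K := K) ρ
  have hE : ∀ χ, Φ (idem ((MonoidAlgebra.of K G).comp ι) χ) = E χ := by
    intro χ
    simp only [idem, E, map_smul, map_sum, MonoidHom.comp_apply, hΦ, ρ]
  let e := idem (K := K) (o.comp ζ) (MonoidHom.id Kˣ)
  have he : e * e = e := by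
    have := idem_mul_idem (o.comp ζ) hZ (MonoidHom.id Kˣ) (MonoidHom.id Kˣ)
    rwa [if_pos rfl] at this
  have hce : ∀ g, e * o g = o g * e := by
    intro g
    simp only [e, idem, smul_mul_assoc, mul_smul_comm, sum_mul, mul_sum, MonoidHom.comp_apply,
      ← map_mul, hζ]
  have hc : ∀ x, e * x = x * e := by
    intro x
    induction x using MonoidAlgebra.induction_on with
    | of g => exact hce g
    | add a b ha hb => rw [mul_add, add_mul, ha, hb]
    | smul r a ha => rw [mul_smul_comm, smul_mul_assoc, ha]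
  have hze : ∀ z : Kˣ, o (ζ z) * e = (z : K) • e := fun z =>
    mul_idem (o.comp ζ) (MonoidHom.id Kˣ) z
  set η := Φ ξ
  set S := o (j s)
  set S' := o (j s⁻¹)
  have hS : S' * S = 1 := by simp only [S, S', ← map_mul]; simp
  have g1 : ∀ χ ∈ J, η * E χ = lam χ • E χ := fun χ hχ => by
    rw [← hE, ← map_mul, h1 χ hχ, map_smul]
  have g2 : ∀ χ ∈ J, η * (S * E χ) = 0 := fun χ hχ => by
    rw [← hE, ← mul_assoc]
    simp only [S]
    rw [← hΦ, ← map_mul, ← map_mul, h2 χ hχ, map_zero]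
  have EE : ∀ χ ψ, E χ * E ψ = if χ = ψ then E ψ else 0 := fun χ ψ => idem_mul_idem ρ hΓ χ ψ
  let M := ∑ ψ ∈ J, (lam ψ)⁻¹ • (E ψ * η)
  have M1 : ∀ χ ∈ J, M * E χ = E χ := by
    intro χ hχ
    simp only [M, sum_mul, smul_mul_assoc, mul_assoc, g1 χ hχ, mul_smul_comm, EE]
    rw [sum_eq_single χ]
    · rw [if_pos rfl, smul_smul, inv_mul_cancel₀ (hlam χ hχ), one_smul]
    · intro b _ hb; simp [hb]
    · intro hh; exact absurd hχ hh
  have M2 : ∀ χ ∈ J, M * (S * E χ) = 0 := by
    intro χ hχ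
    simp only [M, sum_mul, smul_mul_assoc, mul_assoc, g2 χ hχ, mul_zero, smul_zero, sum_const_zero]
  refine ring_lemma (I := Γ →* Kˣ) (A := J × Bool) e he hc E ?_ ?_ ?_ (fun α => α.1.1)
    (fun α => if α.2 then E α.1.1 * M else E α.1.1 * S' * (1 - M))
    (fun α => if α.2 then E α.1.1 else S * E α.1.1) ?_ ?_
  · rw [← sum_mul, sum_idem ρ hΓ, one_mul]
  · intro χ hχ
    let ι2 : Γ × Kˣ →* H := (j.comp ι).noncommCoprod ζ fun a b => (hζ b _).symm
    have hι2 : Function.Injective ι2 := by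
      rw [injective_iff_map_eq_one]
      rintro ⟨g, z⟩ hh
      obtain ⟨rfl, rfl⟩ := hinj g z hh
      rfl
    refine idem_ne_zero ι2 hι2 (K := K) ?_ (χ.coprod (MonoidHom.id Kˣ)) ?_
    · rw [Fintype.card_prod, Nat.cast_mul]; exact mul_ne_zero hΓ hZ
    · rw [← hχ]
      simp only [E, e, idem, smul_mul_assoc, mul_smul_comm, sum_mul, mul_sum, smul_smul,
        Fintype.sum_prod_type, Fintype.card_prod, Nat.cast_mul, mul_inv, smul_sum]
      rw [sum_comm]
      refine sum_congr rfl fun z _ => sum_congr rfl fun g _ => ?_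
      simp only [MonoidHom.comp_apply, ρ, o,
        MonoidHom.coprod_apply, MonoidHom.id_apply, mul_inv, Units.val_mul]
      congr 1
      · ring
      · rw [← map_mul]; rfl
  · intro χ ψ
    refine ⟨o (h (ψ * χ⁻¹)), o (h (ψ * χ⁻¹))⁻¹, ?_⟩
    simp only [E, idem, smul_mul_assoc, mul_smul_comm, sum_mul, mul_sum, smul_sum]
    refine sum_congr rfl fun g _ => ?_
    have : o (h (ψ * χ⁻¹)) * ρ g * o (h (ψ * χ⁻¹))⁻¹ = ρ g * o (ζ ((ψ * χ⁻¹) g)) := by
      simp only [ρ, MonoidHom.comp_apply, ← map_mul, hconj]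
      congr 1; group
    rw [this, mul_assoc, hze, mul_smul_comm, smul_smul, smul_smul, smul_smul]
    congr 1
    simp only [MonoidHom.mul_apply, MonoidHom.inv_apply, Units.val_mul, Units.val_inv_eq_inv_val]
    field_simp
  · rintro ⟨⟨χ, hχ⟩, b⟩ ⟨⟨ψ, hψ⟩, b'⟩
    cases b <;> cases b'
    · simp only [Bool.false_eq_true, if_false, Prod.mk.injEq, Subtype.mk.injEq, and_true]
      rw [mul_assoc, sub_mul, M2 ψ hψ, sub_zero, one_mul, mul_assoc, ← mul_assoc S', hS, one_mul, EE]
      split_ifs with hh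
      · rw [hh]
      · rfl
    · simp only [Bool.false_eq_true, if_false, if_true, Prod.mk.injEq, and_false]
      rw [mul_assoc, sub_mul, M1 ψ hψ, one_mul, sub_self, mul_zero]
    · simp only [Bool.false_eq_true, if_false, if_true, Prod.mk.injEq, Bool.true_eq_false, and_false]
      rw [mul_assoc, M2 ψ hψ, mul_zero]
    · simp only [if_true, Prod.mk.injEq, Subtype.mk.injEq, and_true]
      rw [mul_assoc, M1 ψ hψ, EE]
      split_ifs with hh
      · rw [hh]
      · rfl
  · rw [Fintype.card_eq_nat_card, hcard, Fintype.card_prod, Fintype.card_coe, Fintype.card_bool]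
    omega

end Vale.Agent.Tri
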