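import Vale.Agent.P194.Data
import Vale.Agent.P194.Ring

/-!
A group algebra over a finite field that is not directly finite, descent to the prime field and
to a finitely presented group.
-/

namespace Vale.Agent.Tri

open Finset

universe u

theorem enough (K : Type) [Field K] [Fintype K] :
    HasEnoughRootsOfUnity K (Monoid.exponent (Kˣ × Kˣ)) := by
  obtain ⟨θ, hθ⟩ := IsCyclic.exists_generator (α := Kˣ)
  have hord : orderOf θ = Nat.card Kˣ := orderOf_eq_card_of_forall_mem_zpowers hθ
  have : NeZero (Nat.card Kˣ) := ⟨Nat.card_pos.ne'⟩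
  have : HasEnoughRootsOfUnity K (Nat.card Kˣ) :=
    { prim := ⟨θ, by rw [IsPrimitiveRoot.coe_units_iff, ← hord]; exact IsPrimitiveRoot.orderOf θ⟩
      cyc := rootsOfUnity.isCyclic K _ }
  refine HasEnoughRootsOfUnity.of_dvd K (n := Nat.card Kˣ) ?_
  refine Monoid.exponent_dvd_of_forall_pow_eq_one fun g => Prod.ext ?_ ?_ <;>
    simp [pow_card_eq_one']

theorem card_units_ne (K : Type) [Field K] [Fintype K] [DecidableEq K] :
    (Fintype.card Kˣ : K) ≠ 0 := by
  rw [Fintype.card_units, Nat.cast_sub Fintype.card_pos, FiniteField.cast_card_eq_zero]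
  simp

open Classical in
theorem not_df_of_rel {K : Type} [Field K] [Fintype K] (X : GraphData (Kˣ × Kˣ))
    [Fintype X.S] [Fintype X.T] [Fintype X.E] (o : X.S) (J : Finset (Kˣ × Kˣ →* Kˣ))
    (hJ : Nat.card (Kˣ × Kˣ) < 2 * J.card)
    (hχ : ∀ χ ∈ J, (∀ y, ∑ e with X.tgt e = y, (χ (X.b e) : K) = 0) ∧
        (∀ x, x ≠ o → ∑ e with X.src e = x, (χ (X.a e) : K) = 0) ∧
        ∑ e with X.src e = o, (χ (X.a e) : K) ≠ 0)
    {G : Type} [Group G] (ι : Kˣ × Kˣ →* G) (s : G) (tS : X.S → G) (tT : X.T → G)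
    (hι : Function.Injective ι)
    (hrel : ∀ e, tS (X.src e) * ι (X.a e) * s = tT (X.tgt e) * ι (X.b e)) :
    ∃ (H : Type) (_ : Group H), (Finite G → Finite H) ∧
      ∃ a b : MonoidAlgebra K H, a * b = 1 ∧ b * a ≠ 1 := by
  have := enough K
  let of := MonoidAlgebra.of K G
  refine not_df (K := K) (Γ := Kˣ × Kˣ) ?_ ι hι s
    (of (tS o)⁻¹ * ∑ e, of (tS (X.src e)) * of (ι (X.a e))) J hJ
    (fun χ => ∑ e with X.src e = o, (χ (X.a e) : K)) (fun χ h => (hχ χ h).2.2) ?_ ?_
  · rw [Fintype.card_prod, Nat.cast_mul]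
    exact mul_ne_zero (card_units_ne K) (card_units_ne K)
  · intro χ h
    have h1 : ∀ g, of (ι g) * idem ((MonoidAlgebra.of K G).comp ι) χ =
        (χ g : K) • idem ((MonoidAlgebra.of K G).comp ι) χ := mul_idem (of.comp ι) χ
    rw [mul_assoc, sum_mul]
    simp_rw [mul_assoc, h1, mul_smul_comm]
    rw [← sum_fiberwise (g := X.src), sum_eq_single o]
    · rw [sum_congr rfl (g := fun e => (χ (X.a e) : K) • (of (tS o) * idem (of.comp ι) χ))
        fun e he => by rw [(mem_filter.1 he).2]]
      rw [← sum_smul, mul_smul_comm, ← mul_assoc, ← map_mul]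
      simp [of, ← MonoidAlgebra.one_def]
    · intro x _ hx
      rw [sum_congr rfl (g := fun e => (χ (X.a e) : K) • (of (tS x) * idem (of.comp ι) χ))
        fun e he => by rw [(mem_filter.1 he).2]]
      rw [← sum_smul, (hχ χ h).2.1 x hx, zero_smul]
    · simp
  · intro χ h
    have h1 : ∀ g, of (ι g) * idem ((MonoidAlgebra.of K G).comp ι) χ =
        (χ g : K) • idem ((MonoidAlgebra.of K G).comp ι) χ := mul_idem (of.comp ι) χ
    have h2 : ∀ e, of (tS (X.src e)) * of (ι (X.a e)) * of s =
        of (tT (X.tgt e)) * of (ι (X.b e)) := by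
      intro e; simp only [← map_mul, hrel]
    rw [mul_assoc (of _), sum_mul, mul_assoc, sum_mul,
      sum_congr rfl (g := fun e => (χ (X.b e) : K) • (of (tT (X.tgt e)) * idem (of.comp ι) χ))
        fun e _ => by rw [← mul_smul_comm, ← h1, ← mul_assoc, ← h2]]
    rw [← sum_fiberwise (g := X.tgt), sum_eq_zero, mul_zero]
    intro y _
    rw [sum_congr rfl (g := fun e => (χ (X.b e) : K) • (of (tT y) * idem (of.comp ι) χ))
      fun e he => by rw [(mem_filter.1 he).2]]
    rw [← sum_smul, (hχ χ h).1 y, zero_smul]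

theorem exists_finite_field (p : ℕ) [Fact p.Prime] :
    ∃ (K : Type) (_ : Field K) (_ : Fintype K) (_ : CharP K p) (H : Type) (_ : Group H)
      (a b : MonoidAlgebra K H), a * b = 1 ∧ b * a ≠ 1 := by
  classical
  obtain ⟨K, _, _, _, X, _, _, _, o, J, _, hJ, hχ⟩ := exists_data p
  obtain ⟨G, _, ι, s, tS, tT, hι, hrel⟩ := X.exists_group
  obtain ⟨H, _, _, h⟩ := not_df_of_rel X o J hJ hχ ι s tS tT hι hrel
  exact ⟨K, inferInstance, inferInstance, inferInstance, H, inferInstance, h⟩

theorem descend (p : ℕ) [Fact p.Prime] {K : Type} [Field K] [Fintype K] [CharP K p] {H : Type}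
    [Group H] (a b : MonoidAlgebra K H) (hab : a * b = 1) (hba : b * a ≠ 1) :
    ∃ a' b' : MonoidAlgebra (ZMod p) (H × Kˣ), a' * b' = 1 ∧ b' * a' ≠ 1 := by
  classical
  let _ := ZMod.algebra K p
  let φ : MonoidAlgebra (ZMod p) Kˣ →ₐ[ZMod p] K := MonoidAlgebra.lift (ZMod p) K Kˣ (Units.coeHom K)
  have hφ : Function.Surjective φ := by
    intro c
    by_cases hc : c = 0
    · exact ⟨0, by simp [hc]⟩
    · exact ⟨MonoidAlgebra.of _ _ (Units.mk0 c hc), by simp [φ]⟩
  have : NeZero (Nat.card Kˣ : ZMod p) := ⟨fun h => card_units_ne K (by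
    have := congrArg (algebraMap (ZMod p) K) h
    rwa [map_natCast, map_zero, ← Fintype.card_eq_nat_card] at this)⟩
  obtain ⟨η, hη, hk⟩ := IsSemisimpleRing.ideal_eq_span_idempotent (RingHom.ker φ)
  have hη0 : φ η = 0 := by
    rw [← RingHom.mem_ker, hk]; exact Ideal.subset_span rfl
  have hker : ∀ x, φ x = 0 → (1 - η) * x = 0 := by
    intro x hx
    rw [← RingHom.mem_ker, hk, Ideal.mem_span_singleton'] at hx
    obtain ⟨y, rfl⟩ := hx
    rw [mul_comm y, ← mul_assoc, sub_mul, one_mul, hη.eq, sub_self, zero_mul]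
  have hψ0 : ∀ x y, φ x = φ y → (1 - η) * x = (1 - η) * y := by
    intro x y h
    rw [← sub_eq_zero, ← mul_sub]
    exact hker _ (by rw [map_sub, h, sub_self])
  let ψ : K →+ MonoidAlgebra (ZMod p) Kˣ :=
    { toFun := fun c => (1 - η) * Function.surjInv hφ c
      map_zero' := hker _ (Function.surjInv_eq hφ 0)
      map_add' := fun c d => by
        rw [← mul_add]
        exact hψ0 _ _ (by simp only [map_add, Function.surjInv_eq]) }
  have hψ : ∀ x, ψ (φ x) = (1 - η) * x := fun x => hψ0 _ _ (Function.surjInv_eq hφ _)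
  let T := MonoidAlgebra (ZMod p) (H × Kˣ)
  let i : MonoidAlgebra (ZMod p) Kˣ →ₐ[ZMod p] T :=
    MonoidAlgebra.mapDomainAlgHom (ZMod p) (ZMod p) (MonoidHom.inr H Kˣ)
  have hi1 : ∀ z r, i (MonoidAlgebra.single z r) = MonoidAlgebra.single (1, z) r := fun z r =>
    MonoidAlgebra.mapDomain_single
  have hi : ∀ x (y : T), i x * y = y * i x := by
    intro x y
    induction x using MonoidAlgebra.induction_on with
    | of z =>
      induction y using MonoidAlgebra.induction_on with
      | of w =>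
        rw [MonoidAlgebra.of_apply, MonoidAlgebra.of_apply, hi1, MonoidAlgebra.single_mul_single,
          MonoidAlgebra.single_mul_single]
        simp [Prod.mul_def, mul_comm]
      | add a b ha hb => rw [mul_add, add_mul, ha, hb]
      | smul r a ha => rw [mul_smul_comm, smul_mul_assoc, ha]
    | add a b ha hb => rw [map_add, mul_add, add_mul, ha, hb]
    | smul r a ha => rw [map_smul, mul_smul_comm, smul_mul_assoc, ha]
  let π0 : H × Kˣ →* MonoidAlgebra K H :=
    (MonoidAlgebra.singleHom (R := K) (M := H)).comp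
      (((Units.coeHom K).comp (MonoidHom.snd H Kˣ)).prod (MonoidHom.fst H Kˣ))
  let π : T →ₐ[ZMod p] MonoidAlgebra K H := MonoidAlgebra.lift (ZMod p) _ _ π0
  have hπ : ∀ (h : H) (z : Kˣ) (r : ZMod p), π (MonoidAlgebra.single (h, z) r) =
      MonoidAlgebra.single h (φ (MonoidAlgebra.single z r)) := by
    intro h z r
    refine (MonoidAlgebra.lift_single π0 (h, z) r).trans ?_
    simp [π0, φ, MonoidAlgebra.singleHom]
  have hπi : ∀ x, π (i x) = MonoidAlgebra.single 1 (φ x) := by
    intro x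
    induction x using MonoidAlgebra.induction_linear with
    | zero => simp
    | add a b ha hb => rw [map_add, map_add, ha, hb, map_add, MonoidAlgebra.single_add]
    | single z r => rw [← hπ, hi1]
  have hπs : Function.Surjective π := by
    intro y
    induction y using MonoidAlgebra.induction_linear with
    | zero => exact ⟨0, map_zero _⟩
    | add a b ha hb =>
      obtain ⟨a, rfl⟩ := ha
      obtain ⟨b, rfl⟩ := hb
      exact ⟨a + b, map_add _ _ _⟩
    | single h c =>
      obtain ⟨x, rfl⟩ := hφ c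
      refine ⟨i x * MonoidAlgebra.single (h, 1) 1, ?_⟩
      rw [map_mul, hπi, hπ, MonoidAlgebra.single_mul_single]
      simp [φ]
  let Ψ : MonoidAlgebra K H →+ T :=
    (Finsupp.liftAddHom fun h => (AddMonoidHom.mulRight (MonoidAlgebra.single (h, 1) 1 : T)).comp
      (i.toRingHom.toAddMonoidHom.comp ψ)).comp MonoidAlgebra.coeffAddEquiv.toAddMonoidHom
  have hΨ1 : ∀ h c, Ψ (MonoidAlgebra.single h c) = i (ψ c) * MonoidAlgebra.single (h, 1) 1 := by
    intro h c
    simp [Ψ]
  have hΨ : ∀ x, Ψ (π x) = i (1 - η) * x := by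
    intro x
    induction x using MonoidAlgebra.induction_linear with
    | zero => simp
    | add a b ha hb => rw [map_add, map_add, ha, hb, mul_add]
    | single hz r =>
      obtain ⟨h, z⟩ := hz
      rw [hπ, hΨ1, hψ, map_mul, mul_assoc]
      congr 1
      rw [hi1, MonoidAlgebra.single_mul_single]
      simp
  obtain ⟨A, rfl⟩ := hπs a
  obtain ⟨B, rfl⟩ := hπs b
  set ε := i (1 - η) with hε
  have hεη : i η = 1 - ε := by rw [hε, map_sub, map_one, sub_sub_cancel]
  have hεε : ε * ε = ε := by rw [hε, ← map_mul, hη.one_sub.eq]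
  have hπε : π ε = 1 := by rw [hε, hπi, map_sub, map_one, hη0, sub_zero]; rfl
  have h3 : ε * (1 - ε) = 0 := by rw [mul_sub, mul_one, hεε, sub_self]
  have h4 : (1 - ε) * ε = 0 := by rw [sub_mul, one_mul, hεε, sub_self]
  refine ⟨ε * A + (1 - ε), ε * B + (1 - ε), ?_, fun h => hba ?_⟩
  · have e0 : ε * (A * B) = ε := by
      rw [← hΨ, map_mul, hab, ← map_one π, hΨ, mul_one]
    have e1 : ε * A * (ε * B) = ε := by
      rw [mul_assoc, ← mul_assoc A, ← hi _ A, mul_assoc, ← mul_assoc, hεε, e0]
    have e2 : ε * A * (1 - ε) = 0 := by rw [hi _ A, mul_assoc, h3, mul_zero]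
    have e3 : (1 - ε) * (ε * B) = 0 := by rw [← mul_assoc, h4, zero_mul]
    have e4 : (1 - ε) * (1 - ε) = 1 - ε := by rw [mul_sub, mul_one, h4, sub_zero]
    rw [add_mul, mul_add, mul_add, e1, e2, e3, e4]; abel
  · have := congrArg π h
    simpa [hπε] using this

theorem to_fp {F : Type u} [Field F] {G : Type} [Group G] (a b : MonoidAlgebra F G)
    (hab : a * b = 1) (hba : b * a ≠ 1) :
    ∃ (G' : Type) (_ : Group G') (_ : Group.IsFinitelyPresented G') (a' b' : MonoidAlgebra F G'),
      a' * b' = 1 ∧ b' * a' ≠ 1 := by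
  classical
  let S : Finset G := a.coeff.support ∪ b.coeff.support
  let rels : Set (FreeGroup S) :=
    (Set.range fun q : {q : (S × S) × (S × S) // q.1.1.1 * q.1.2.1 = q.2.1.1 * q.2.2.1} =>
      FreeGroup.of q.1.1.1 * FreeGroup.of q.1.1.2 * (FreeGroup.of q.1.2.1 * FreeGroup.of q.1.2.2)⁻¹) ∪
    (Set.range fun q : {q : S × S // q.1.1 * q.2.1 = 1} =>
      FreeGroup.of q.1.1 * FreeGroup.of q.1.2)
  have : Finite rels := ((Set.finite_range _).union (Set.finite_range _)).to_subtype
  let G' := PresentedGroup rels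
  have hr : ∀ r ∈ rels, FreeGroup.lift (fun s : S => s.1) r = 1 := by
    rintro r (⟨q, rfl⟩ | ⟨q, rfl⟩)
    · simp [q.2]
    · simp [q.2]
  let π : G' →* G := PresentedGroup.toGroup hr
  let θ : G → G' := fun g =>
    if h : ∃ q : S × S, q.1.1 * q.2.1 = g then
      PresentedGroup.of h.choose.1 * PresentedGroup.of h.choose.2 else 1
  have hθ : ∀ s t : S, θ (s.1 * t.1) = PresentedGroup.of s * PresentedGroup.of t := by
    intro s t
    have h : ∃ q : S × S, q.1.1 * q.2.1 = s.1 * t.1 := ⟨(s, t), rfl⟩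
    simp only [θ]
    rw [dif_pos h]
    exact PresentedGroup.mk_eq_mk_of_mul_inv_mem (rels := rels)
      (Or.inl ⟨⟨(h.choose, (s, t)), h.choose_spec⟩, rfl⟩)
  have hθ1 : θ 1 = 1 := by
    simp only [θ]
    split_ifs with h
    · exact PresentedGroup.one_of_mem (rels := rels) (Or.inr ⟨⟨h.choose, h.choose_spec⟩, rfl⟩)
    · rfl
  have hsum : ∀ x : MonoidAlgebra F G, x.coeff.support ⊆ S →
      x = ∑ s : S, MonoidAlgebra.single s.1 (x.coeff s.1) := by
    intro x hx
    ext g
    simp only [MonoidAlgebra.coeff_sum, MonoidAlgebra.coeff_single, Finsupp.finsetSum_apply,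
      Finsupp.single_apply]
    by_cases hg : g ∈ S
    · rw [sum_eq_single ⟨g, hg⟩]
      · simp
      · intro s _ hs
        rw [if_neg fun h => hs (Subtype.ext h)]
      · simp
    · rw [sum_eq_zero]
      · by_contra h
        exact hg (hx (Finsupp.mem_support_iff.2 h))
      · intro s _
        rw [if_neg]
        rintro rfl
        exact hg s.2
  have ha := hsum a subset_union_left
  have hb := hsum b subset_union_right
  refine ⟨G', inferInstance, inferInstance,
    ∑ s : S, MonoidAlgebra.single (PresentedGroup.of s) (a.coeff s.1),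
    ∑ s : S, MonoidAlgebra.single (PresentedGroup.of s) (b.coeff s.1), ?_, fun h => hba ?_⟩
  · have := congrArg (MonoidAlgebra.mapDomainLinearMap F F θ) hab
    rw [ha, hb, sum_mul_sum] at this
    simp only [map_sum, MonoidAlgebra.single_mul_single, MonoidAlgebra.one_def,
      MonoidAlgebra.mapDomainLinearMap_single, hθ, hθ1] at this
    rw [sum_mul_sum, MonoidAlgebra.one_def, ← this]
    simp only [MonoidAlgebra.single_mul_single]
  · have := congrArg (MonoidAlgebra.mapDomainAlgHom F F π) h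
    have hπ : ∀ s : S, π (PresentedGroup.of s) = s.1 := fun s => PresentedGroup.toGroup.of hr
    simp only [map_mul, map_sum, map_one, MonoidAlgebra.mapDomainAlgHom_apply,
      MonoidAlgebra.mapDomain_single, hπ] at this
    rwa [← ha, ← hb] at this

theorem main (p : ℕ) [Fact p.Prime] :
    ∃ (G : Type) (_ : Group G), Group.IsFinitelyPresented G ∧
      ∀ (K : Type u) [Field K] [CharP K p],
        ∃ a b : MonoidAlgebra K G, a * b = 1 ∧ b * a ≠ 1 := by
  obtain ⟨K, _, _, _, H, _, a, b, h1, h2⟩ := exists_finite_field p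
  obtain ⟨a, b, h1, h2⟩ := descend p a b h1 h2
  obtain ⟨G, _, hG, a, b, h1, h2⟩ := to_fp a b h1 h2
  refine ⟨G, inferInstance, hG, fun F _ _ => ?_⟩
  let f := MonoidAlgebra.mapRingHom G (ZMod.castHom (dvd_refl p) F)
  have hf : Function.Injective f :=
    MonoidAlgebra.map_injective _ (ZMod.castHom (dvd_refl p) F).injective
  refine ⟨f a, f b, by rw [← map_mul, h1, map_one], fun h => h2 (hf ?_)⟩
  rw [map_mul, h, map_one]

end Vale.Agent.Tri
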