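import Mathlib

/-!
Most power maps of a degree five extension of a large finite field sum to zero along every coset
of the small field.
-/

namespace Vale.Agent.Tri

open Finset Polynomial

theorem poly_sum_zero {k K : Type} [Field k] [Fintype k] [Field K] [Algebra k K] (P : K[X])
    (h : P.natDegree < Fintype.card k - 1) : ∑ t : k, P.eval (algebraMap k K t) = 0 := by
  simp_rw [eval_eq_sum_range]
  rw [sum_comm]
  refine sum_eq_zero fun i hi => ?_
  rw [← mul_sum]
  have : ∑ t : k, (algebraMap k K t) ^ i = 0 := by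
    simp_rw [← map_pow]
    rw [← map_sum, FiniteField.sum_pow_lt_card_sub_one k i (by simp at hi; omega), map_zero]
  rw [this, mul_zero]

theorem geo (p n : ℕ) (hp : 1 ≤ p) : ∑ e ∈ range n, (p - 1) * p ^ e + 1 = p ^ n := by
  induction n with
  | zero => simp
  | succ n ih =>
    rw [sum_range_succ, add_right_comm, ih, pow_succ]
    obtain ⟨m, rfl⟩ := Nat.exists_eq_add_of_le' hp
    simp only [Nat.add_sub_cancel]; ring

theorem pow_mod_card {k : Type} [Field k] [Fintype k] {p κ : ℕ} (hk : Fintype.card k = p ^ κ)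
    (u : k) (a : ℕ) : u ^ p ^ a = u ^ p ^ (a % κ) := by
  conv_lhs => rw [← Nat.div_add_mod a κ, pow_add, pow_mul, pow_mul, ← hk,
    FiniteField.pow_card_pow]

theorem vanish {k K : Type} [Field k] [Fintype k] [Field K] [Algebra k K] (p : ℕ) [Fact p.Prime]
    [CharP k p] [CharP K p] (κ : ℕ) (hk : Fintype.card k = p ^ κ)
    (c : Fin 5 × Fin κ → ℕ) (hc : ∀ i, c i ≤ p - 1) (β : ℕ) (hβ : 3 * β + 3 ≤ κ)
    (h0 : ∀ i : Fin 5 × Fin κ, (i.2 : ℕ) / 3 = β → c i = 0) (w : K) :
    ∑ t : k, (w + algebraMap k K t) ^ (∑ i : Fin 5 × Fin κ, c i * p ^ ((i.2 : ℕ) + κ * i.1)) = 0 := by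
  have hp : 2 ≤ p := (Fact.out : p.Prime).two_le
  set sh := κ - 3 - 3 * β with hsh
  let e : Fin κ → ℕ := fun r => (r + sh) % κ
  have he : ∀ r : Fin κ, (r : ℕ) / 3 ≠ β → e r < κ - 3 := by
    intro r hr
    have hr' := r.2
    simp only [e]
    by_cases h : (r : ℕ) + sh < κ
    · rw [Nat.mod_eq_of_lt h]; omega
    · rw [Nat.mod_eq_sub_mod (by omega), Nat.mod_eq_of_lt (by omega)]; omega
  have einj : Function.Injective e := by
    intro r r' h
    have hr := r.2
    have hr' := r'.2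
    simp only [e] at h
    have h2 : (r : ℕ) % κ = (r' : ℕ) % κ := Nat.ModEq.add_right_cancel' sh h
    rw [Nat.mod_eq_of_lt hr, Nat.mod_eq_of_lt hr'] at h2
    exact Fin.ext h2
  let P : K[X] := ∏ i : Fin 5 × Fin κ, (C (w ^ p ^ ((i.2 : ℕ) + κ * i.1)) + X ^ p ^ e i.2) ^ c i
  have hP : P.natDegree < Fintype.card k - 1 := by
    have h1 : P.natDegree ≤ ∑ i : Fin 5 × Fin κ, c i * p ^ e i.2 := by
      refine (natDegree_prod_le _ _).trans (sum_le_sum fun i _ => ?_)
      refine natDegree_pow_le.trans (Nat.mul_le_mul_left _ ?_)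
      refine (natDegree_add_le _ _).trans ?_
      simp
    have h2 : ∀ l : Fin 5, ∑ r : Fin κ, c (l, r) * p ^ e r ≤
        ∑ x ∈ range (κ - 3), (p - 1) * p ^ x := by
      intro l
      calc ∑ r : Fin κ, c (l, r) * p ^ e r
          = ∑ r ∈ univ.filter (fun r : Fin κ => (r : ℕ) / 3 ≠ β), c (l, r) * p ^ e r := by
            symm
            refine sum_filter_of_ne fun r _ hr hh => hr ?_
            rw [h0 (l, r) hh, zero_mul]
        _ ≤ ∑ r ∈ univ.filter (fun r : Fin κ => (r : ℕ) / 3 ≠ β), (p - 1) * p ^ e r :=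
            sum_le_sum fun r _ => Nat.mul_le_mul_right _ (hc _)
        _ = ∑ x ∈ (univ.filter (fun r : Fin κ => (r : ℕ) / 3 ≠ β)).image e, (p - 1) * p ^ x := by
            rw [sum_image fun a _ b _ h => einj h]
        _ ≤ _ := by
            refine sum_le_sum_of_subset fun x hx => ?_
            obtain ⟨r, hr, rfl⟩ := mem_image.1 hx
            exact mem_range.2 (he r (mem_filter.1 hr).2)
    have h3 : ∑ i : Fin 5 × Fin κ, c i * p ^ e i.2 ≤ 5 * ∑ x ∈ range (κ - 3), (p - 1) * p ^ x := by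
      rw [Fintype.sum_prod_type]
      calc _ ≤ ∑ _l : Fin 5, ∑ x ∈ range (κ - 3), (p - 1) * p ^ x := sum_le_sum fun l _ => h2 l
        _ = _ := by simp
    have h4 := geo p (κ - 3) (by omega)
    have h5 : p ^ κ = p ^ (κ - 3) * p ^ 3 := by rw [← pow_add]; congr 1; omega
    have h6 : 8 ≤ p ^ 3 := by
      calc 8 = 2 ^ 3 := by norm_num
        _ ≤ p ^ 3 := Nat.pow_le_pow_left hp 3
    have h7 : p ^ (κ - 3) * 8 ≤ p ^ κ := by rw [h5]; exact Nat.mul_le_mul_left _ h6
    rw [hk]; omega
  rw [← poly_sum_zero P hP, ← Equiv.sum_comp (iterateFrobeniusEquiv k p sh).toEquiv]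
  refine sum_congr rfl fun u _ => ?_
  simp only [P, eval_prod, eval_pow, eval_add, eval_C, eval_X]
  rw [← prod_pow_eq_pow_sum]
  refine prod_congr rfl fun i _ => ?_
  rw [mul_comm, pow_mul, add_pow_char_pow]
  have key : ((iterateFrobeniusEquiv k p sh).toEquiv u) ^ p ^ ((i.2 : ℕ) + κ * i.1) =
      u ^ p ^ e i.2 := by
    simp only [RingEquiv.toEquiv_eq_coe, EquivLike.coe_coe, iterateFrobeniusEquiv_def]
    rw [← pow_mul, ← pow_add, pow_mod_card hk]
    congr 2
    simp only [e]
    rw [← add_assoc, Nat.add_mul_mod_self_left, add_comm]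
  rw [← map_pow (algebraMap k K), ← map_pow (algebraMap k K), key]

theorem exists_N (M : ℕ) (hM : 1 ≤ M) : ∃ N, 1 ≤ N ∧ 4 * (M - 1) ^ N ≤ M ^ N := by
  have hM' : (0 : ℝ) < M := by exact_mod_cast hM
  obtain ⟨N, hN⟩ := exists_pow_lt_of_lt_one (x := (1 / 4 : ℝ)) (y := ((M - 1 : ℕ) : ℝ) / M)
    (by norm_num) (by rw [div_lt_one hM']; exact_mod_cast (by omega))
  refine ⟨N, ?_, ?_⟩
  · rcases Nat.eq_zero_or_pos N with rfl | h
    · norm_num at hN
    · exact h
  · rw [div_pow, div_lt_iff₀ (by positivity)] at hN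
    have : (4 : ℝ) * ((M - 1 : ℕ) : ℝ) ^ N ≤ (M : ℝ) ^ N := by linarith
    exact_mod_cast this

theorem exists_field (p : ℕ) [Fact p.Prime] :
    ∃ (k K : Type) (_ : Field k) (_ : Fintype k) (_ : Field K) (_ : Fintype K) (_ : Algebra k K)
      (_ : CharP K p), Module.finrank k K = 5 ∧ 8 ≤ Fintype.card K ∧ ∃ J : Finset ℕ,
        (∀ j ∈ J, j < Fintype.card K) ∧ 3 * Fintype.card K ≤ 4 * J.card ∧
        ∀ j ∈ J, ∀ w : K, ∑ t : k, (w + algebraMap k K t) ^ j = 0 := by
  classical
  have hp : 2 ≤ p := (Fact.out : p.Prime).two_le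
  obtain ⟨N, hN1, hN⟩ := exists_N (p ^ 15) (Nat.one_le_pow _ _ (by omega))
  let k := GaloisField p (N * 3)
  let K := FiniteField.Extension k p 5
  let _inst : Fintype k := Fintype.ofFinite k
  let _inst : Fintype K := Fintype.ofFinite K
  have _inst : CharP K p := charP_of_injective_algebraMap (algebraMap k K).injective p
  have hk : Fintype.card k = p ^ (N * 3) := by
    rw [Fintype.card_eq_nat_card]; exact GaloisField.card p _ (by omega)
  have hK : Fintype.card K = p ^ (5 * (N * 3)) := by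
    rw [Fintype.card_eq_nat_card, FiniteField.natCard_extension, ← Fintype.card_eq_nat_card, hk,
      ← pow_mul, mul_comm]
  have _inst : NeZero p := ⟨by omega⟩
  -- digits
  let dig : (Fin N → (Fin 5 × Fin 3 → Fin p)) → Fin 5 × Fin (N * 3) → Fin p := fun c i =>
    c (finProdFinEquiv.symm i.2).1 (i.1, (finProdFinEquiv.symm i.2).2)
  let jj : (Fin N → (Fin 5 × Fin 3 → Fin p)) → ℕ := fun c =>
    finFunctionFinEquiv fun x => dig c (finProdFinEquiv.symm x)
  have jj_eq : ∀ c, jj c = ∑ i : Fin 5 × Fin (N * 3), (dig c i : ℕ) * p ^ ((i.2 : ℕ) + N * 3 * i.1) := by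
    intro c
    simp only [jj]
    rw [finFunctionFinEquiv_apply, ← Equiv.sum_comp finProdFinEquiv]
    refine sum_congr rfl fun i _ => ?_
    simp
  have jj_inj : Function.Injective jj := by
    intro c c' h
    have h1 := finFunctionFinEquiv.injective (Fin.ext h)
    funext β x
    have := congrFun h1 (finProdFinEquiv (x.1, finProdFinEquiv (β, x.2)))
    simpa only [dig, Equiv.symm_apply_apply] using this
  let good : Finset (Fin N → (Fin 5 × Fin 3 → Fin p)) := univ.filter fun c => ∃ β, c β = 0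
  have hcard : Fintype.card (Fin 5 × Fin 3 → Fin p) = p ^ 15 := by simp
  have hbad : (univ.filter fun c : Fin N → (Fin 5 × Fin 3 → Fin p) => ¬ ∃ β, c β = 0).card =
      (p ^ 15 - 1) ^ N := by
    have : (univ.filter fun c : Fin N → (Fin 5 × Fin 3 → Fin p) => ¬ ∃ β, c β = 0) =
        Fintype.piFinset fun _ => univ.erase 0 := by
      ext c; simp
    rw [this, Fintype.card_piFinset]
    simp [card_erase_of_mem, hcard]
  have htot : good.card + (p ^ 15 - 1) ^ N = (p ^ 15) ^ N := by
    rw [← hbad, card_filter_add_card_filter_not, card_univ, Fintype.card_fun, hcard]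
    simp
  have hK2 : Fintype.card K = (p ^ 15) ^ N := by
    rw [hK, ← pow_mul]; congr 1; ring
  refine ⟨k, K, inferInstance, inferInstance, inferInstance, inferInstance, inferInstance,
    inferInstance, FiniteField.finrank_extension k p 5, ?_, good.image jj, ?_, ?_, ?_⟩
  · rw [hK]
    calc 8 = 2 ^ 3 := by norm_num
      _ ≤ 2 ^ (5 * (N * 3)) := Nat.pow_le_pow_right (by norm_num) (by omega)
      _ ≤ _ := Nat.pow_le_pow_left hp _
  · intro j hj
    obtain ⟨c, _, rfl⟩ := mem_image.1 hj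
    rw [hK]; exact Fin.is_lt _
  · rw [card_image_of_injective _ jj_inj, hK2]; omega
  · intro j hj w
    obtain ⟨c, hc, rfl⟩ := mem_image.1 hj
    obtain ⟨β, hβ⟩ := (mem_filter.1 hc).2
    rw [jj_eq]
    refine vanish p (N * 3) hk (fun i => (dig c i : ℕ)) (fun i => ?_) β ?_ ?_ w
    · have := (dig c i).2; omega
    · have := β.2; omega
    · intro i hi
      have : (finProdFinEquiv.symm i.2).1 = β := by
        apply Fin.ext
        simpa [finProdFinEquiv, Fin.divNat] using hi
      simp only [dig]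
      rw [this, hβ]; rfl

end Vale.Agent.Tri
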