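import Vale.Agent.P194.Graph
import Vale.Agent.P194.Field

/-!
The labelled graph: points and lines of the affine three-space with directions on a conic.
-/

namespace Vale.Agent.Tri

open Finset

section
variable {k K : Type} [Field k] [Field K] [Algebra k K] (α : K)
  (hα : ∀ c0 c1 c2 c3 c4 : k, algebraMap k K c0 + algebraMap k K c1 * α +
    algebraMap k K c2 * α ^ 2 + algebraMap k K c3 * α ^ 3 + algebraMap k K c4 * α ^ 4 = 0 →
    c0 = 0 ∧ c1 = 0 ∧ c2 = 0 ∧ c3 = 0 ∧ c4 = 0)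

def ww (i : k × k × k) : K :=
  α + algebraMap k K i.1 * α ^ 2 + algebraMap k K i.2.1 * α ^ 3 + algebraMap k K i.2.2 * α ^ 4

include hα in
theorem ww_ne (i : k × k × k) (t : k) : ww α i + algebraMap k K t ≠ 0 := by
  intro h
  have := hα t 1 i.1 i.2.1 i.2.2 (by rw [← h]; simp [ww]; ring)
  exact one_ne_zero this.2.1

noncomputable def uu (i : k × k × k) (t : k) : Kˣ := Units.mk0 _ (ww_ne α hα i t)

theorem uu_sidon {i j : k × k × k} {t t' u u' : k}
    (h : (uu α hα i t)⁻¹ * uu α hα i t' = (uu α hα j u)⁻¹ * uu α hα j u') :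
    t = t' ∨ (i = j ∧ t = u) := by
  have h1 : uu α hα i t' * uu α hα j u = uu α hα j u' * uu α hα i t := by
    calc uu α hα i t' * uu α hα j u
        = uu α hα i t * ((uu α hα i t)⁻¹ * uu α hα i t') * uu α hα j u := by group
      _ = _ := by rw [h, mul_comm (uu α hα i t), mul_assoc, mul_comm (uu α hα i t), ← mul_assoc,
          mul_comm _ (uu α hα j u)]; group
  have h2 := congrArg Units.val h1
  simp only [uu, Units.val_mul, Units.val_mk0] at h2
  obtain ⟨h0, ha, hb, hc, hd⟩ := hα (t' * u - u' * t) ((u - u') + (t' - t))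
    (i.1 * (u - u') + j.1 * (t' - t)) (i.2.1 * (u - u') + j.2.1 * (t' - t))
    (i.2.2 * (u - u') + j.2.2 * (t' - t)) (by
      simp only [map_add, map_sub, map_mul]
      simp only [ww] at h2
      linear_combination h2)
  by_cases ht : t = t'
  · exact Or.inl ht
  · right
    have hΔ : t' - t ≠ 0 := sub_ne_zero.2 (Ne.symm ht)
    refine ⟨Prod.ext ?_ (Prod.ext ?_ ?_), ?_⟩
    · apply mul_right_cancel₀ hΔ; linear_combination (-1 : k) * hb + i.1 * ha
    · apply mul_right_cancel₀ hΔ; linear_combination (-1 : k) * hc + i.2.1 * ha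
    · apply mul_right_cancel₀ hΔ; linear_combination (-1 : k) * hd + i.2.2 * ha
    · apply mul_right_cancel₀ hΔ; linear_combination (-1 : k) * h0 + t * ha

def lineOf (e : (k × k × k) × k) : k × k × k :=
  (e.2, e.1.2.1 - e.2 * e.1.1, e.1.2.2 - e.2 ^ 2 * e.1.1)

theorem eq_of_line {e e' : (k × k × k) × k} (h : lineOf e = lineOf e') (hx : e.1.1 = e'.1.1) :
    e = e' := by
  obtain ⟨⟨x, y, z⟩, m⟩ := e
  obtain ⟨⟨x', y', z'⟩, m'⟩ := e'
  simp only [lineOf, Prod.mk.injEq] at h hx ⊢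
  obtain ⟨h1, h2, h3⟩ := h
  subst h1 hx
  exact ⟨⟨rfl, by linear_combination h2, by linear_combination h3⟩, rfl⟩

open Classical in
noncomputable def graph (θ : Kˣ) : GraphData (Kˣ × Kˣ) where
  S := k × k × k
  T := k × k × k
  E := (k × k × k) × k
  src e := e.1
  tgt := lineOf
  a e := (uu α hα e.1 e.2, if e = 0 then θ else 1)
  b e := (uu α hα (lineOf e) e.1.1, 1)
  simple e e' h1 h2 := eq_of_line h2 (by rw [h1])
  no4 := by
    rintro ⟨⟨x1, y1, z1⟩, m1⟩ ⟨⟨x2, y2, z2⟩, m2⟩ ⟨P3, m3⟩ ⟨P4, m4⟩ h1 h2 h3 h4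
    simp only at h2 h4
    subst h2 h4
    simp only [lineOf, Prod.mk.injEq] at h1 h3 ⊢
    obtain ⟨rfl, ha, hb⟩ := h1
    obtain ⟨rfl, hc, hd⟩ := h3
    have : (m1 - m3) * (x1 - x2) = 0 := by linear_combination (-1 : k) * ha - hc
    rcases mul_eq_zero.1 this with h | h
    · right
      have : m1 = m3 := sub_eq_zero.1 h
      subst this
      exact ⟨rfl, hc, hd⟩
    · left
      have : x1 = x2 := sub_eq_zero.1 h
      subst this
      exact ⟨rfl, by linear_combination ha, by linear_combination hb⟩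
  a_sidon := by
    rintro ⟨P1, m1⟩ ⟨P2, m2⟩ ⟨P3, m3⟩ ⟨P4, m4⟩ h1 h2 h
    simp only at h1 h2
    subst h1 h2
    rcases uu_sidon α hα (congrArg Prod.fst h) with h | ⟨h, h'⟩
    · left; simp only at h; rw [h]
    · right; simp only at h h'; rw [h, h']
  b_sidon := by
    intro e1 e2 e3 e4 h1 h2 h
    have := congrArg Prod.fst h
    simp only [Prod.fst_mul, Prod.fst_inv] at this
    rw [← h1, ← h2] at this
    rcases uu_sidon α hα this with h | ⟨h, h'⟩
    · exact Or.inl (eq_of_line h1 h)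
    · exact Or.inr (eq_of_line h h')

theorem graph_no6 (e1 e2 e3 e4 e5 e6 : (k × k × k) × k) (h1 : lineOf e1 = lineOf e2)
    (h2 : e2.1 = e3.1) (h3 : lineOf e3 = lineOf e4) (h4 : e4.1 = e5.1)
    (h5 : lineOf e5 = lineOf e6) (h6 : e6.1 = e1.1) :
    e1.1 = e2.1 ∨ lineOf e2 = lineOf e3 ∨ lineOf e6 = lineOf e1 := by
  obtain ⟨⟨x1, y1, z1⟩, m1⟩ := e1
  obtain ⟨⟨x2, y2, z2⟩, m2⟩ := e2
  obtain ⟨P3, m3⟩ := e3
  obtain ⟨⟨x4, y4, z4⟩, m4⟩ := e4
  obtain ⟨P5, m5⟩ := e5
  obtain ⟨P6, m6⟩ := e6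
  simp only at h2 h4 h6
  subst h2 h4 h6
  simp only [lineOf, Prod.mk.injEq] at h1 h3 h5 ⊢
  obtain ⟨rfl, ha, hb⟩ := h1
  obtain ⟨rfl, hc, hd⟩ := h3
  obtain ⟨rfl, he, hf⟩ := h5
  have : (x1 - x2) * ((m1 - m3) * (m1 - m5)) = 0 := by
    linear_combination (m3 + m5) * (ha + hc + he) - (hb + hd + hf)
  rcases mul_eq_zero.1 this with h | h
  · left
    have : x1 = x2 := sub_eq_zero.1 h
    subst this
    exact ⟨rfl, by linear_combination ha, by linear_combination hb⟩
  · right
    rcases mul_eq_zero.1 h with h | h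
    · left
      have : m1 = m3 := sub_eq_zero.1 h
      subst this
      exact ⟨rfl, rfl, rfl⟩
    · right
      have : m1 = m5 := sub_eq_zero.1 h
      subst this
      exact ⟨rfl, rfl, rfl⟩

end

theorem exists_alpha {k K : Type} [Field k] [Finite k] [Field K] [Finite K] [Algebra k K]
    (h : Module.finrank k K = 5) : ∃ α : K, ∀ c0 c1 c2 c3 c4 : k, algebraMap k K c0 +
      algebraMap k K c1 * α + algebraMap k K c2 * α ^ 2 + algebraMap k K c3 * α ^ 3 +
      algebraMap k K c4 * α ^ 4 = 0 → c0 = 0 ∧ c1 = 0 ∧ c2 = 0 ∧ c3 = 0 ∧ c4 = 0 := by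
  let pb := Field.powerBasisOfFiniteOfSeparable k K
  have hd : pb.dim = 5 := by rw [← pb.finrank, h]
  refine ⟨pb.gen, fun c0 c1 c2 c3 c4 hc => ?_⟩
  have li := (pb.basis.reindex (finCongr hd)).linearIndependent
  rw [Fintype.linearIndependent_iff] at li
  have := li ![c0, c1, c2, c3, c4] (by
    rw [Fin.sum_univ_five]
    simp only [Module.Basis.coe_reindex, Function.comp, PowerBasis.coe_basis, Algebra.smul_def]
    simpa using hc)
  exact ⟨this 0, this 1, this 2, this 3, this 4⟩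

/-- the character `(x, y) ↦ x ^ j * y ^ i` -/
def chi {K : Type} [Field K] (ji : ℕ × ℕ) : Kˣ × Kˣ →* Kˣ where
  toFun g := g.1 ^ ji.1 * g.2 ^ ji.2
  map_one' := by simp
  map_mul' g h := by simp only [Prod.fst_mul, Prod.snd_mul, mul_pow]; exact mul_mul_mul_comm _ _ _ _

open Classical in
theorem exists_data (p : ℕ) [Fact p.Prime] :
    ∃ (K : Type) (_ : Field K) (_ : Fintype K) (_ : CharP K p) (X : GraphData (Kˣ × Kˣ))
      (_ : Fintype X.S) (_ : Fintype X.T) (_ : Fintype X.E) (o : X.S)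
      (J : Finset (Kˣ × Kˣ →* Kˣ)),
      (∀ e1 e2 e3 e4 e5 e6 : X.E, X.tgt e1 = X.tgt e2 → X.src e2 = X.src e3 →
        X.tgt e3 = X.tgt e4 → X.src e4 = X.src e5 → X.tgt e5 = X.tgt e6 → X.src e6 = X.src e1 →
        X.src e1 = X.src e2 ∨ X.tgt e2 = X.tgt e3 ∨ X.tgt e6 = X.tgt e1) ∧
      Nat.card (Kˣ × Kˣ) < 2 * J.card ∧
      ∀ χ ∈ J, (∀ y, ∑ e with X.tgt e = y, (χ (X.b e) : K) = 0) ∧
        (∀ x, x ≠ o → ∑ e with X.src e = x, (χ (X.a e) : K) = 0) ∧
        ∑ e with X.src e = o, (χ (X.a e) : K) ≠ 0 := by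
  obtain ⟨k, K, _, _, _, _, _, _, hr, h8, J, hJ1, hJ2, hJ3⟩ := exists_field p
  obtain ⟨α, hα⟩ := exists_alpha hr
  obtain ⟨θ, hθ⟩ := IsCyclic.exists_generator (α := Kˣ)
  have hord : orderOf θ = Fintype.card K - 1 := by
    rw [orderOf_eq_card_of_forall_mem_zpowers hθ, Nat.card_units, Fintype.card_eq_nat_card]
  set Q := Fintype.card K with hQ
  refine ⟨K, inferInstance, inferInstance, inferInstance, graph α hα θ,
    (inferInstance : Fintype (k × k × k)), (inferInstance : Fintype (k × k × k)),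
    (inferInstance : Fintype ((k × k × k) × k)), (0 : k × k × k),
    ((J.erase (Q - 1)) ×ˢ (Ioo 0 (Q - 1))).image chi, graph_no6, ?_, ?_⟩
  · rw [card_image_of_injOn, card_product, Nat.card_Ioo, Nat.card_prod, Nat.card_units,
      ← Fintype.card_eq_nat_card, ← hQ]
    · have h1 : J.card - 1 ≤ (J.erase (Q - 1)).card := pred_card_le_card_erase
      obtain ⟨n, hn⟩ : ∃ n, Q = n + 2 := ⟨Q - 2, by omega⟩
      generalize (J.erase (Q - 1)).card = c at *
      rw [hn] at hJ2 h8 ⊢
      have h2 : 3 * n + 2 ≤ 4 * c := by omega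
      simp only [show n + 2 - 1 = n + 1 by omega, show n + 1 - 0 - 1 = n by omega]
      nlinarith
    · rintro ⟨j, i⟩ h ⟨j', i'⟩ h' e
      simp only [coe_product, coe_erase, coe_Ioo, Set.mem_prod, Set.mem_sdiff, mem_coe,
        Set.mem_singleton_iff, Set.mem_Ioo] at h h'
      have e1 := DFunLike.congr_fun e (θ, 1)
      have e2 := DFunLike.congr_fun e (1, θ)
      simp only [chi, MonoidHom.coe_mk, OneHom.coe_mk, one_pow, mul_one, one_mul] at e1 e2
      have := hJ1 j h.1.1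
      have := hJ1 j' h'.1.1
      refine Prod.ext (pow_injOn_Iio_orderOf ?_ ?_ e1) (pow_injOn_Iio_orderOf ?_ ?_ e2) <;>
        simp only [Set.mem_Iio, hord] <;> omega
  · intro χ hχ
    obtain ⟨⟨j, i⟩, hji, rfl⟩ := mem_image.1 hχ
    simp only [mem_product, mem_erase, mem_Ioo] at hji
    have hj := hJ3 j hji.1.2
    have hsrc : ∀ (x : k × k × k) (g : (k × k × k) × k → K)
        (inst : DecidablePred fun e : (k × k × k) × k => e.1 = x),
        ∑ e ∈ @filter _ _ inst univ, g e = ∑ m : k, g (x, m) := by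
      intro x g inst
      symm
      refine sum_bij (fun m _ => (x, m)) (fun m _ => by simp) (fun m _ m' _ h => by simpa using h)
        (fun e he => ⟨e.2, mem_univ _, ?_⟩) (fun _ _ => rfl)
      rw [← (mem_filter.1 he).2]
    refine ⟨fun y => ?_, fun x hx => ?_, ?_⟩
    · rw [← hj (ww α y)]
      symm
      obtain ⟨m, b, c⟩ := y
      have hl : ∀ x : k, lineOf ((x, b + m * x, c + m ^ 2 * x), m) = (m, b, c) := by
        intro x; simp [lineOf]
      refine sum_bij (fun x _ => ((x, b + m * x, c + m ^ 2 * x), m))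
        (fun x _ => mem_filter.2 ⟨@mem_univ ((k × k × k) × k) _ _, hl x⟩)
        (fun x _ x' _ h => by simpa using congrArg (fun e => e.1.1) h)
        (fun e he => ⟨e.1.1, mem_univ _, ?_⟩) (fun x _ => ?_)
      · exact eq_of_line ((hl _).trans (mem_filter.1 he).2.symm) rfl
      · simp [graph, chi, uu, hl]
    · refine (hsrc x _ _).trans ?_
      rw [← hj (ww α x)]
      refine sum_congr rfl fun m _ => ?_
      have : ((x, m) : (k × k × k) × k) ≠ 0 := fun h => hx (congrArg Prod.fst h)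
      simp [graph, chi, uu, this]
    · intro h
      have h2 := (hsrc 0 _ _).symm.trans h
      have h3 := hj (ww α (0 : k × k × k))
      rw [← add_sum_erase _ _ (mem_univ (0 : k))] at h2 h3
      have h4 : ∑ m ∈ univ.erase (0 : k), (chi (j, i) ((graph α hα θ).a ((0 : k × k × k), m)) : K) =
          ∑ m ∈ univ.erase (0 : k), (ww α (0 : k × k × k) + algebraMap k K m) ^ j := by
        refine sum_congr rfl fun m hm => ?_
        have : (((0 : k × k × k), m) : (k × k × k) × k) ≠ 0 :=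
          fun h => (mem_erase.1 hm).1 (congrArg Prod.snd h)
        simp [graph, chi, uu, this]
      rw [h4] at h2
      have h5 := add_right_cancel (h2.trans h3.symm)
      have h6 : (((0 : k × k × k), (0 : k)) : (k × k × k) × k) = 0 := rfl
      simp only [graph, chi, uu, h6, if_true, MonoidHom.coe_mk, OneHom.coe_mk, Units.val_mul,
        Units.val_pow_eq_pow_val, Units.val_mk0, Prod.fst_zero, Prod.snd_zero] at h5
      have h7 : (ww α (0 : k × k × k) + algebraMap k K 0) ^ j ≠ 0 :=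
        pow_ne_zero _ (ww_ne α hα _ _)
      have h8 : (θ : K) ^ i = 1 := mul_left_cancel₀ h7 (h5.trans (mul_one _).symm)
      have h9 : θ ^ i = 1 := Units.ext (by simpa using h8)
      exact pow_ne_one_of_lt_orderOf (by omega) (by omega) h9

end Vale.Agent.Tri
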