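import Mathlib

/-!
Development of a triangle complex whose links have girth at least six.
The universal cover is built sphere by sphere.
-/

namespace Vale.Agent.Tri

universe u

/-- Abstract link data: `adj` is the link graph on darts, `rho` relates a dart with the darts
that may be its reverse, `kap a a' b` transports the neighbour `b` of `a` to a neighbour of `a'`. -/
structure LinkData (D : Type u) where
  adj : D → D → Prop
  rho : D → D → Prop
  kap : D → D → D → D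
  col : D → Bool
  rev : D → D
  adj_symm : ∀ {a b}, adj a b → adj b a
  adj_col : ∀ {a b}, adj a b → col a ≠ col b
  no4 : ∀ {a b c d}, adj a b → adj b c → adj c d → adj d a → a = c ∨ b = d
  rho_symm : ∀ {a b}, rho a b → rho b a
  rho_irrefl : ∀ a, ¬ rho a a
  rho_rev : ∀ a, rho a (rev a)
  k1 : ∀ {a a' b}, rho a a' → adj a b → adj a' (kap a a' b)
  k2 : ∀ {a a' b}, rho a a' → adj a b → kap a' a (kap a a' b) = b
  k3 : ∀ {a a' b b'}, rho a a' → rho b b' → adj a b → rho (kap a a' b) (kap b b' a)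
  k4 : ∀ {a a' b b'}, rho a a' → rho b b' → adj a b → kap (kap a a' b) (kap b b' a) a' = b'

variable {D : Type u}

namespace LinkData
variable (L : LinkData D)

theorem adj_ne {a b : D} (h : L.adj a b) : a ≠ b := fun e => L.adj_col h (by rw [e])

theorem no3 {a b c : D} (h1 : L.adj a b) (h2 : L.adj b c) (h3 : L.adj c a) : False := by
  have := L.adj_col h1; have := L.adj_col h2; have := L.adj_col h3
  revert this; cases h : L.col a <;> cases h' : L.col b <;> cases h'' : L.col c <;> simp_all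

theorem no5 {a b c d e : D} (h1 : L.adj a b) (h2 : L.adj b c) (h3 : L.adj c d) (h4 : L.adj d e)
    (h5 : L.adj e a) : False := by
  have := L.adj_col h1; have := L.adj_col h2; have := L.adj_col h3
  have := L.adj_col h4; have := L.adj_col h5
  cases h : L.col a <;> cases h' : L.col b <;> cases h'' : L.col c <;> cases h''' : L.col d <;>
    simp_all

theorem kap_inj {a a' b c : D} (h : L.rho a a') (hb : L.adj a b) (hc : L.adj a c)
    (e : L.kap a a' b = L.kap a a' c) : b = c := by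
  rw [← L.k2 h hb, e, L.k2 h hc]

/-- horizontal darts -/
def IsH {S : Type u} (down : S → D → Prop) (v : S) (b : D) : Prop :=
  ¬ down v b ∧ ∃ a, down v a ∧ L.adj a b

/-- upward darts -/
def IsU {S : Type u} (down : S → D → Prop) (v : S) (b : D) : Prop :=
  ¬ down v b ∧ ¬ L.IsH down v b

section clique
variable {S : Type u} {down : S → D → Prop}
  (clique : ∀ {v a b}, down v a → down v b → a ≠ b → L.adj a b)
include clique

theorem down_unique {v : S} {a a' b : D} (ha : down v a) (ha' : down v a')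
    (h : L.adj a b) (h' : L.adj a' b) : a = a' := by
  by_contra hne
  exact L.no3 h (L.adj_symm h') (L.adj_symm (clique ha ha' hne))

theorem not_adj_HH {v : S} {b b' : D} (hb : L.IsH down v b) (hb' : L.IsH down v b') :
    ¬ L.adj b b' := by
  intro h
  obtain ⟨hn, a, ha, hab⟩ := hb
  obtain ⟨hn', a', ha', hab'⟩ := hb'
  by_cases e : a = a'
  · subst e; exact L.no3 hab h (L.adj_symm hab')
  · rcases L.no4 hab h (L.adj_symm hab') (L.adj_symm (clique ha ha' e)) with e | e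
    · exact hn' (e ▸ ha)
    · exact hn (e ▸ ha')

theorem H_unique {v : S} {c b b' : D} (hc : L.IsU down v c) (hb : L.IsH down v b)
    (hb' : L.IsH down v b') (h : L.adj b c) (h' : L.adj b' c) : b = b' := by
  obtain ⟨hn, a, ha, hab⟩ := hb
  obtain ⟨hn', a', ha', hab'⟩ := hb'
  by_cases e : a = a'
  · subst e
    rcases L.no4 hab h (L.adj_symm h') (L.adj_symm hab') with e | e
    · exact absurd (e ▸ ha) hc.1
    · exact e
  · exact (L.no5 hab h (L.adj_symm h') (L.adj_symm hab') (L.adj_symm (clique ha ha' e))).elim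

end clique

theorem not_adj_DU {S : Type u} {down : S → D → Prop} {v : S} {a c : D} (ha : down v a)
    (hc : L.IsU down v c) : ¬ L.adj a c := fun h => hc.2 ⟨hc.1, a, ha, h⟩

end LinkData

/-- One sphere of the development. -/
structure Layer (L : LinkData D) where
  S : Type u
  down : S → D → Prop
  hor : S → D → S × D
  clique : ∀ {v a b}, down v a → down v b → a ≠ b → L.adj a b
  hor_H : ∀ {v b}, L.IsH down v b → L.IsH down (hor v b).1 (hor v b).2
  hor_rho : ∀ {v b}, L.IsH down v b → L.rho b (hor v b).2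
  hor_inv : ∀ {v b}, L.IsH down v b → hor (hor v b).1 (hor v b).2 = (v, b)
  hor_down : ∀ {v b a}, L.IsH down v b → down v a → L.adj b a →
    down (hor v b).1 (L.kap b (hor v b).2 a)

namespace Layer
variable {L : LinkData D} (Y : Layer L)

/-- upward darts of the layer -/
def P : Type u := {p : Y.S × D // L.IsU Y.down p.1 p.2}

/-- partner relation through the horizontal dart `b` -/
def Pt (p q : Y.P) (b : D) : Prop :=
  L.IsH Y.down p.1.1 b ∧ L.adj b p.1.2 ∧ q.1.1 = (Y.hor p.1.1 b).1 ∧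
    q.1.2 = L.kap b (Y.hor p.1.1 b).2 p.1.2

theorem up_kap {v : Y.S} {b c : D} (hb : L.IsH Y.down v b) (hc : L.IsU Y.down v c)
    (h : L.adj b c) : L.IsU Y.down (Y.hor v b).1 (L.kap b (Y.hor v b).2 c) := by
  have hr := Y.hor_rho hb
  have h1 := L.k1 hr h
  refine ⟨fun hd => ?_, fun hH => L.not_adj_HH (down := Y.down) Y.clique (Y.hor_H hb) hH h1⟩
  obtain ⟨_, a, ha, hab⟩ := id hb
  have h2 := Y.hor_down hb ha (L.adj_symm hab)
  have h3 := L.down_unique (down := Y.down) Y.clique hd h2 (L.adj_symm h1) (L.adj_symm (L.k1 hr (L.adj_symm hab)))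
  have := L.kap_inj hr h (L.adj_symm hab) h3
  exact hc.1 (this ▸ ha)

theorem exists_Pt (p : Y.P) {b : D} (hb : L.IsH Y.down p.1.1 b) (h : L.adj b p.1.2) :
    ∃ q, Y.Pt p q b :=
  ⟨⟨((Y.hor p.1.1 b).1, L.kap b (Y.hor p.1.1 b).2 p.1.2), Y.up_kap hb p.2 h⟩, hb, h, rfl, rfl⟩

theorem Pt_symm {p q : Y.P} {b : D} (h : Y.Pt p q b) : Y.Pt q p (Y.hor p.1.1 b).2 := by
  obtain ⟨hb, ha, e1, e2⟩ := h
  have hr := Y.hor_rho hb
  refine ⟨e1 ▸ Y.hor_H hb, e2 ▸ L.k1 hr ha, ?_, ?_⟩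
  · rw [e1, Y.hor_inv hb]
  · rw [e1, Y.hor_inv hb, e2, L.k2 hr ha]

theorem Pt_b_unique {p q q' : Y.P} {b b' : D} (h : Y.Pt p q b) (h' : Y.Pt p q' b') : b = b' :=
  L.H_unique (down := Y.down) Y.clique p.2 h.1 h'.1 h.2.1 h'.2.1

theorem Pt_unique {p q q' : Y.P} {b b' : D} (h : Y.Pt p q b) (h' : Y.Pt p q' b') : q = q' := by
  have := Y.Pt_b_unique h h'
  subst this
  apply Subtype.ext
  exact Prod.ext (h.2.2.1.trans h'.2.2.1.symm) (h.2.2.2.trans h'.2.2.2.symm)

theorem Pt_ne {p q : Y.P} {b : D} (h : Y.Pt p q b) : p ≠ q := by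
  rintro rfl
  have := Y.Pt_b_unique h (Y.Pt_symm h)
  have h2 := Y.hor_rho h.1
  rw [← this] at h2
  exact L.rho_irrefl _ h2

instance setoid : Setoid Y.P where
  r p q := p = q ∨ ∃ b, Y.Pt p q b
  iseqv := {
    refl := fun _ => Or.inl rfl
    symm := by
      rintro p q (rfl | ⟨b, h⟩)
      · exact Or.inl rfl
      · exact Or.inr ⟨_, Y.Pt_symm h⟩
    trans := by
      rintro p q r (rfl | ⟨b, h⟩) h2
      · exact h2
      · rcases h2 with rfl | ⟨b', h'⟩
        · exact Or.inr ⟨b, h⟩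
        · exact Or.inl (Y.Pt_unique (Y.Pt_symm h) h') }

theorem mk_eq_iff {p q : Y.P} :
    Quotient.mk Y.setoid p = Quotient.mk Y.setoid q ↔ (p = q ∨ ∃ b, Y.Pt p q b) :=
  Quotient.eq

theorem exists_lab : ∃ lab : Y.P → D, (∀ p, L.rho p.1.2 (lab p)) ∧
    ∀ p q b, Y.Pt p q b → lab q = L.kap p.1.2 (lab p) b := by
  classical
  let o : Y.P → Y.P := fun p => (Quotient.mk Y.setoid p).out
  have ho : ∀ p, o p = p ∨ ∃ b, Y.Pt (o p) p b := fun p =>
    Y.mk_eq_iff.1 (Quotient.out_eq _)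
  have hoo : ∀ p q b, Y.Pt p q b → o p = o q := fun p q b h => by
    simp only [o]; rw [Y.mk_eq_iff.2 (Or.inr ⟨b, h⟩)]
  let lab : Y.P → D := fun p =>
    if h : ∃ b, Y.Pt (o p) p b then L.kap (o p).1.2 (L.rev (o p).1.2) h.choose else L.rev p.1.2
  have l1 : ∀ p, o p = p → lab p = L.rev p.1.2 := fun p h => by
    simp only [lab]
    rw [dif_neg]
    rintro ⟨b, hb⟩
    exact Y.Pt_ne hb h
  have l2 : ∀ p q b, Y.Pt q p b → o p = q → lab p = L.kap q.1.2 (L.rev q.1.2) b := by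
    intro p q b h e
    subst e
    simp only [lab]
    rw [dif_pos ⟨b, h⟩]
    congr 1
    exact Y.Pt_b_unique (Exists.choose_spec (⟨b, h⟩ : ∃ b, Y.Pt (o p) p b)) h
  have key : ∀ p q b, Y.Pt p q b → o p = p →
      L.rho q.1.2 (lab q) ∧ lab q = L.kap p.1.2 (lab p) b ∧
        lab p = L.kap q.1.2 (lab q) (Y.hor p.1.1 b).2 := by
    intro p q b h e
    have e2 : o q = p := (hoo p q b h).symm.trans e
    rw [l2 q p b h e2, l1 p e, h.2.2.2]
    exact ⟨L.k3 (Y.hor_rho h.1) (L.rho_rev _) h.2.1, rfl,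
      (L.k4 (Y.hor_rho h.1) (L.rho_rev _) h.2.1).symm⟩
  refine ⟨lab, fun p => ?_, fun p q b h => ?_⟩
  · rcases ho p with e | ⟨b, h⟩
    · rw [l1 p e]; exact L.rho_rev _
    · exact (key _ _ _ h (hoo _ _ _ h)).1
  · rcases ho p with e | ⟨b', h'⟩
    · exact (key _ _ _ h e).2.1
    · have e : o p = q := Y.Pt_unique (Y.Pt_symm h') h
      have hs := Y.Pt_symm h
      have e3 : o q = q := (hoo _ _ _ h).symm.trans e
      have := (key _ _ _ hs e3).2.2
      rw [this, h.2.2.1, Y.hor_inv h.1]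

noncomputable def lab : Y.P → D := Y.exists_lab.choose

theorem lab_rho (p : Y.P) : L.rho p.1.2 (Y.lab p) := Y.exists_lab.choose_spec.1 p

theorem lab_Pt {p q : Y.P} {b : D} (h : Y.Pt p q b) : Y.lab q = L.kap p.1.2 (Y.lab p) b :=
  Y.exists_lab.choose_spec.2 p q b h

theorem lab_adj {p q : Y.P} {b : D} (h : Y.Pt p q b) : L.adj (Y.lab p) (Y.lab q) := by
  rw [Y.lab_Pt h]; exact L.k1 (Y.lab_rho p) (L.adj_symm h.2.1)

theorem lab_inj {p q : Y.P} (h : Quotient.mk Y.setoid p = Quotient.mk Y.setoid q)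
    (e : Y.lab p = Y.lab q) : p = q := by
  rcases Y.mk_eq_iff.1 h with h | ⟨b, h⟩
  · exact h
  · exact absurd e (L.adj_ne (Y.lab_adj h))

/-- down darts in the next layer -/
def ndown (u : Quotient Y.setoid) (a : D) : Prop := ∃ p, Quotient.mk Y.setoid p = u ∧ Y.lab p = a

theorem nclique {u : Quotient Y.setoid} {a b : D} (ha : Y.ndown u a) (hb : Y.ndown u b)
    (h : a ≠ b) : L.adj a b := by
  obtain ⟨p, rfl, rfl⟩ := ha
  obtain ⟨q, e, rfl⟩ := hb
  rcases Y.mk_eq_iff.1 e.symm with e | ⟨c, e⟩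
  · exact absurd (by rw [e]) h
  · exact Y.lab_adj e

theorem up_of_nH {p : Y.P} {b : D} (hb : ¬ Y.ndown (Quotient.mk Y.setoid p) b)
    (h : L.adj (Y.lab p) b) : L.IsU Y.down p.1.1 (L.kap (Y.lab p) p.1.2 b) := by
  have hr := L.rho_symm (Y.lab_rho p)
  have h1 := L.k1 hr h
  refine ⟨fun hd => L.not_adj_DU hd p.2 (L.adj_symm h1), fun hH => hb ?_⟩
  obtain ⟨q, hq⟩ := Y.exists_Pt p hH (L.adj_symm h1)
  refine ⟨q, (Y.mk_eq_iff.2 (Or.inr ⟨_, hq⟩)).symm, ?_⟩
  rw [Y.lab_Pt hq, L.k2 hr h]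

theorem nH_of_up {p q : Y.P} (e : q.1.1 = p.1.1) (h : L.adj p.1.2 q.1.2) :
    L.IsH Y.ndown (Quotient.mk Y.setoid p) (L.kap p.1.2 (Y.lab p) q.1.2) := by
  have h1 := L.k1 (Y.lab_rho p) h
  refine ⟨?_, _, ⟨p, rfl, rfl⟩, h1⟩
  rintro ⟨r, hr, e2⟩
  rcases Y.mk_eq_iff.1 hr.symm with e3 | ⟨c, e3⟩
  · subst e3; exact L.adj_ne h1 e2
  · rw [Y.lab_Pt e3] at e2
    have := L.kap_inj (Y.lab_rho p) (L.adj_symm e3.2.1) h e2
    exact q.2.2 (by rw [e, ← this]; exact e3.1)

open Classical in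
/-- horizontal moves in the next layer -/
noncomputable def nhor (u : Quotient Y.setoid) (b : D) : Quotient Y.setoid × D :=
  if h : ∃ pq : Y.P × Y.P, Quotient.mk Y.setoid pq.1 = u ∧ pq.2.1.1 = pq.1.1.1 ∧
      L.adj pq.1.1.2 pq.2.1.2 ∧ b = L.kap pq.1.1.2 (Y.lab pq.1) pq.2.1.2 then
    (Quotient.mk Y.setoid h.choose.2,
      L.kap h.choose.2.1.2 (Y.lab h.choose.2) h.choose.1.1.2)
  else (u, b)

theorem nhor_eq {p q : Y.P} (e : q.1.1 = p.1.1) (h : L.adj p.1.2 q.1.2) :
    Y.nhor (Quotient.mk Y.setoid p) (L.kap p.1.2 (Y.lab p) q.1.2) =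
      (Quotient.mk Y.setoid q, L.kap q.1.2 (Y.lab q) p.1.2) := by
  have hex : ∃ pq : Y.P × Y.P, Quotient.mk Y.setoid pq.1 = Quotient.mk Y.setoid p ∧
      pq.2.1.1 = pq.1.1.1 ∧ L.adj pq.1.1.2 pq.2.1.2 ∧
      L.kap p.1.2 (Y.lab p) q.1.2 = L.kap pq.1.1.2 (Y.lab pq.1) pq.2.1.2 :=
    ⟨(p, q), rfl, e, h, rfl⟩
  unfold nhor
  rw [dif_pos hex]
  obtain ⟨h1, h2, h3, h4⟩ := hex.choose_spec
  generalize hex.choose = pq at *
  obtain ⟨p', q'⟩ := pq
  simp only at h1 h2 h3 h4 ⊢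
  have a1 := L.k1 (Y.lab_rho p) h
  have a2 := L.k1 (Y.lab_rho p') h3
  rw [← h4] at a2
  have e1 : Y.lab p' = Y.lab p :=
    L.down_unique (down := Y.ndown) Y.nclique ⟨p', h1, rfl⟩ ⟨p, rfl, rfl⟩ a2 a1
  have e2 : p' = p := Y.lab_inj h1 e1
  subst e2
  have e3 := L.kap_inj (Y.lab_rho p') h h3 h4
  have e4 : q' = q := Subtype.ext (Prod.ext (h2.trans e.symm) e3.symm)
  rw [e4]

theorem nH_cases {u : Quotient Y.setoid} {b : D} (hb : L.IsH Y.ndown u b) :
    ∃ p q : Y.P, Quotient.mk Y.setoid p = u ∧ q.1.1 = p.1.1 ∧ L.adj p.1.2 q.1.2 ∧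
      b = L.kap p.1.2 (Y.lab p) q.1.2 := by
  obtain ⟨hn, a, ⟨p, rfl, rfl⟩, h⟩ := hb
  have hr := L.rho_symm (Y.lab_rho p)
  exact ⟨p, ⟨(p.1.1, L.kap (Y.lab p) p.1.2 b), Y.up_of_nH hn h⟩, rfl, rfl, L.k1 hr h,
    (L.k2 hr h).symm⟩

/-- the next layer -/
noncomputable def next : Layer L where
  S := Quotient Y.setoid
  down := Y.ndown
  hor := Y.nhor
  clique := Y.nclique
  hor_H := by
    intro u b hb
    obtain ⟨p, q, rfl, e, h, rfl⟩ := Y.nH_cases hb
    rw [Y.nhor_eq e h]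
    exact Y.nH_of_up e.symm (L.adj_symm h)
  hor_rho := by
    intro u b hb
    obtain ⟨p, q, rfl, e, h, rfl⟩ := Y.nH_cases hb
    rw [Y.nhor_eq e h]
    exact L.k3 (Y.lab_rho p) (Y.lab_rho q) h
  hor_inv := by
    intro u b hb
    obtain ⟨p, q, rfl, e, h, rfl⟩ := Y.nH_cases hb
    rw [Y.nhor_eq e h]
    exact Y.nhor_eq e.symm (L.adj_symm h)
  hor_down := by
    intro u b a hb ha hab
    obtain ⟨p, q, rfl, e, h, rfl⟩ := Y.nH_cases hb
    rw [Y.nhor_eq e h]
    have e1 : a = Y.lab p := L.down_unique (down := Y.ndown) Y.nclique ha ⟨p, rfl, rfl⟩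
      (L.adj_symm hab) (L.k1 (Y.lab_rho p) h)
    subst e1
    exact ⟨q, rfl, (L.k4 (Y.lab_rho p) (Y.lab_rho q) h).symm⟩

end Layer

/-- The finished development. -/
structure Dev (L : LinkData D) where
  V : Type u
  root : V
  lvl : V → ℕ
  step : V → D → V × D
  down : V → D → Prop
  inv : ∀ v a, step (step v a).1 (step v a).2 = (v, a)
  rho : ∀ v a, L.rho a (step v a).2
  tri : ∀ v a b, L.adj a b →
    step (step v a).1 (L.kap a (step v a).2 b) = ((step v b).1, L.kap b (step v b).2 a)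
  clique : ∀ {v a b}, down v a → down v b → a ≠ b → L.adj a b
  lvl_down : ∀ {v a}, down v a → lvl (step v a).1 + 1 = lvl v
  lvl_hor : ∀ {v a}, L.IsH down v a → lvl (step v a).1 = lvl v
  lvl_up : ∀ {v a}, L.IsU down v a → lvl (step v a).1 = lvl v + 1
  lvl_zero : ∀ {v}, lvl v = 0 → v = root
  lvl_root : lvl root = 0
  ex_down : ∀ {v}, lvl v ≠ 0 → ∃ a, down v a

variable (L : LinkData D)

def base : Layer L where
  S := PUnit
  down := fun _ _ => False
  hor := fun v b => (v, b)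
  clique := fun h => h.elim
  hor_H := fun h => h
  hor_rho := fun h => by obtain ⟨_, _, h, _⟩ := h; exact h.elim
  hor_inv := fun _ => rfl
  hor_down := fun _ h => h.elim

noncomputable def tower : ℕ → Layer L
  | 0 => base L
  | n + 1 => (tower n).next

def TV : Type u := Σ n, (tower L n).S

open Classical in
noncomputable def tdn : (n : ℕ) → (tower L n).S → D → TV L × D
  | 0, v, a => (⟨0, v⟩, a)
  | n + 1, u, a =>
    if h : (tower L n).ndown u a then (⟨n, h.choose.1.1⟩, h.choose.1.2) else (⟨n + 1, u⟩, a)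

open Classical in
noncomputable def tstep (v : TV L) (a : D) : TV L × D :=
  if (tower L v.1).down v.2 a then tdn L v.1 v.2 a
  else if h : L.IsU (tower L v.1).down v.2 a then
    (⟨v.1 + 1, Quotient.mk (tower L v.1).setoid ⟨(v.2, a), h⟩⟩, (tower L v.1).lab ⟨(v.2, a), h⟩)
  else (⟨v.1, ((tower L v.1).hor v.2 a).1⟩, ((tower L v.1).hor v.2 a).2)

theorem tstep_up (n : ℕ) (p : (tower L n).P) :
    tstep L ⟨n, p.1.1⟩ p.1.2 = (⟨n + 1, Quotient.mk (tower L n).setoid p⟩, (tower L n).lab p) := by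
  unfold tstep
  rw [if_neg p.2.1, dif_pos p.2]
  rfl

theorem tstep_hor (n : ℕ) {v : (tower L n).S} {b : D} (h : L.IsH (tower L n).down v b) :
    tstep L ⟨n, v⟩ b = (⟨n, ((tower L n).hor v b).1⟩, ((tower L n).hor v b).2) := by
  unfold tstep
  rw [if_neg h.1, dif_neg (fun hu => hu.2 h)]

theorem tstep_down (n : ℕ) (p : (tower L n).P) :
    tstep L ⟨n + 1, Quotient.mk (tower L n).setoid p⟩ ((tower L n).lab p) =
      (⟨n, p.1.1⟩, p.1.2) := by
  have h : (tower L n).ndown (Quotient.mk (tower L n).setoid p) ((tower L n).lab p) :=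
    ⟨p, rfl, rfl⟩
  unfold tstep
  rw [if_pos (show (tower L (n + 1)).down _ _ from h)]
  have := (tower L n).lab_inj h.choose_spec.1 h.choose_spec.2
  refine (dif_pos h).trans ?_
  rw [this]

theorem tcases (v : TV L) (a : D) :
    (∃ n, ∃ p : (tower L n).P, v = ⟨n + 1, Quotient.mk (tower L n).setoid p⟩ ∧
      a = (tower L n).lab p) ∨ L.IsH (tower L v.1).down v.2 a ∨
      L.IsU (tower L v.1).down v.2 a := by
  by_cases h : (tower L v.1).down v.2 a
  · left
    obtain ⟨n, v⟩ := v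
    cases n with
    | zero => exact h.elim
    | succ n =>
      obtain ⟨p, e1, e2⟩ := h
      exact ⟨n, p, by rw [e1], e2.symm⟩
  · by_cases h2 : L.IsH (tower L v.1).down v.2 a
    · exact Or.inr (Or.inl h2)
    · exact Or.inr (Or.inr ⟨h, h2⟩)

theorem tinv (v : TV L) (a : D) : tstep L (tstep L v a).1 (tstep L v a).2 = (v, a) := by
  rcases tcases L v a with ⟨n, p, rfl, rfl⟩ | h | h
  · rw [tstep_down]; exact tstep_up L n p
  · obtain ⟨n, v⟩ := v
    rw [tstep_hor L n h, tstep_hor L n ((tower L n).hor_H h), (tower L n).hor_inv h]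
  · obtain ⟨n, v⟩ := v
    have := tstep_up L n ⟨(v, a), h⟩
    simp only at this
    rw [this]
    exact tstep_down L n _

theorem trho (v : TV L) (a : D) : L.rho a (tstep L v a).2 := by
  rcases tcases L v a with ⟨n, p, rfl, rfl⟩ | h | h
  · rw [tstep_down]; exact L.rho_symm ((tower L n).lab_rho p)
  · obtain ⟨n, v⟩ := v
    rw [tstep_hor L n h]; exact (tower L n).hor_rho h
  · obtain ⟨n, v⟩ := v
    have := tstep_up L n ⟨(v, a), h⟩
    simp only at this
    rw [this]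
    exact (tower L n).lab_rho ⟨(v, a), h⟩

/-- the triangle property at a corner -/
def TQ (v : TV L) (a b : D) : Prop :=
  tstep L (tstep L v a).1 (L.kap a (tstep L v a).2 b) = ((tstep L v b).1, L.kap b (tstep L v b).2 a)

theorem TQ_symm {v : TV L} {a b : D} (h : TQ L v a b) : TQ L v b a := by
  unfold TQ at *
  have := tinv L (tstep L v a).1 (L.kap a (tstep L v a).2 b)
  rw [h] at this
  exact this

theorem TQ_rot {v : TV L} {a b : D} (hab : L.adj a b) (h : TQ L v a b) :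
    TQ L (tstep L v a).1 (tstep L v a).2 (L.kap a (tstep L v a).2 b) := by
  unfold TQ at *
  rw [tinv, h]
  simp only
  rw [L.k2 (trho L v a) hab, L.k4 (trho L v a) (trho L v b) hab]

theorem TQ_UU (n : ℕ) (p q : (tower L n).P) (e : q.1.1 = p.1.1) (h : L.adj p.1.2 q.1.2) :
    TQ L ⟨n, p.1.1⟩ p.1.2 q.1.2 := by
  unfold TQ
  have h2 := tstep_up L n q
  rw [e] at h2
  rw [tstep_up, h2]
  simp only
  rw [tstep_hor L (n + 1) ((tower L n).nH_of_up e h)]
  have := (tower L n).nhor_eq e h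
  show ((⟨n + 1, ((tower L n).nhor _ _).1⟩ : TV L), ((tower L n).nhor _ _).2) = _
  rw [this]
  rfl

theorem TQ_HU (n : ℕ) (p : (tower L n).P) {b : D} (hb : L.IsH (tower L n).down p.1.1 b)
    (h : L.adj b p.1.2) : TQ L ⟨n, p.1.1⟩ b p.1.2 := by
  unfold TQ
  obtain ⟨q, hq⟩ := (tower L n).exists_Pt p hb h
  rw [tstep_up, tstep_hor L n hb]
  simp only
  rw [← hq.2.2.1, ← hq.2.2.2, tstep_up, ← (tower L n).lab_Pt hq,
    (tower L n).mk_eq_iff.2 (Or.inr ⟨b, hq⟩)]

theorem TQ_U (v : TV L) {a b : D} (ha : L.IsU (tower L v.1).down v.2 a) (h : L.adj a b) :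
    TQ L v a b := by
  obtain ⟨n, v⟩ := v
  by_cases h1 : (tower L n).down v b
  · exact absurd (L.adj_symm h) (L.not_adj_DU h1 ha)
  · by_cases h2 : L.IsH (tower L n).down v b
    · exact TQ_symm L (TQ_HU L n ⟨(v, a), ha⟩ h2 (L.adj_symm h))
    · exact TQ_UU L n ⟨(v, a), ha⟩ ⟨(v, b), ⟨h1, h2⟩⟩ rfl h

theorem TQ_D (n : ℕ) (p : (tower L n).P) {b : D} (h : L.adj ((tower L n).lab p) b) :
    TQ L ⟨n + 1, Quotient.mk (tower L n).setoid p⟩ ((tower L n).lab p) b := by
  have hr := L.rho_symm ((tower L n).lab_rho p)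
  have h1 := L.k1 hr h
  have := TQ_rot L h1 (TQ_U L ⟨n, p.1.1⟩ p.2 h1)
  rw [tstep_up] at this
  simp only at this
  rwa [L.k2 hr h] at this

theorem ttri (v : TV L) (a b : D) (h : L.adj a b) : TQ L v a b := by
  rcases tcases L v a with ⟨n, p, rfl, rfl⟩ | ha | ha
  · exact TQ_D L n p h
  · rcases tcases L v b with ⟨n, p, rfl, rfl⟩ | hb | hb
    · exact TQ_symm L (TQ_D L n p (L.adj_symm h))
    · exact absurd h (L.not_adj_HH (down := (tower L v.1).down) (tower L v.1).clique ha hb)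
    · exact TQ_symm L (TQ_U L v hb (L.adj_symm h))
  · exact TQ_U L v ha h

noncomputable def dev : Dev L where
  V := TV L
  root := ⟨0, PUnit.unit⟩
  lvl := fun v => v.1
  step := tstep L
  down := fun v a => (tower L v.1).down v.2 a
  inv := tinv L
  rho := trho L
  tri := ttri L
  clique := fun {v} => (tower L v.1).clique
  lvl_down := by
    intro v a h
    rcases tcases L v a with ⟨n, p, rfl, rfl⟩ | ha | ha
    · rw [tstep_down]
    · exact absurd h ha.1
    · exact absurd h ha.1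
  lvl_hor := by
    rintro ⟨n, v⟩ a h
    rw [tstep_hor L n h]
  lvl_up := by
    rintro ⟨n, v⟩ a h
    have := tstep_up L n ⟨(v, a), h⟩
    simp only at this
    rw [this]
  lvl_zero := by
    rintro ⟨n, v⟩ h
    simp only at h
    subst h
    rfl
  lvl_root := rfl
  ex_down := by
    rintro ⟨n, v⟩ h
    cases n with
    | zero => exact absurd rfl h
    | succ n =>
      obtain ⟨p, rfl⟩ := Quotient.exists_rep (s := (tower L n).setoid) v
      exact ⟨_, p, rfl, rfl⟩

end Vale.Agent.Tri
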