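import Vale.Agent.P194.Group

/-!
The triangle complex attached to a labelled bipartite graph.
-/

namespace Vale.Agent.Tri

universe u

/-- A bipartite graph of girth at least six whose edges carry two labels in `Γ`, the labels at the
vertices of each side having pairwise distinct quotients. -/
structure GraphData (Γ : Type u) [Group Γ] where
  S : Type u
  T : Type u
  E : Type u
  src : E → S
  tgt : E → T
  a : E → Γ
  b : E → Γ
  simple : ∀ e e', src e = src e' → tgt e = tgt e' → e = e'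
  no4 : ∀ e1 e2 e3 e4, tgt e1 = tgt e2 → src e2 = src e3 → tgt e3 = tgt e4 → src e4 = src e1 →
    src e1 = src e3 ∨ tgt e2 = tgt e4
  a_sidon : ∀ e1 e2 e3 e4, src e1 = src e2 → src e3 = src e4 →
    (a e1)⁻¹ * a e2 = (a e3)⁻¹ * a e4 → e1 = e2 ∨ e1 = e3
  b_sidon : ∀ e1 e2 e3 e4, tgt e1 = tgt e2 → tgt e3 = tgt e4 →
    (b e1)⁻¹ * b e2 = (b e3)⁻¹ * b e4 → e1 = e2 ∨ e1 = e3

/-- dart types -/
inductive Dt (S T : Type u) : Type u
  | sp | sm
  | cS (x : S) | cT (y : T) | gS (x : S) | gT (y : T)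

/-- the six flags of a triangle -/
inductive K6 : Type
  | cs | ct | sc | st | tc | ts

def Dt.r {S T : Type u} : Dt S T → Dt S T
  | .sp => .sm
  | .sm => .sp
  | .cS x => .gS x
  | .cT y => .gT y
  | .gS x => .cS x
  | .gT y => .cT y

def Dt.col {S T : Type u} : Dt S T → Bool
  | .sp => false
  | .sm => false
  | .cS _ => true
  | .cT _ => false
  | .gS _ => true
  | .gT _ => true

def K6.c : K6 → K6
  | .cs => .ct | .ct => .cs | .sc => .st | .st => .sc | .tc => .ts | .ts => .tc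

def K6.f : K6 → K6
  | .cs => .sc | .sc => .cs | .ct => .tc | .tc => .ct | .st => .ts | .ts => .st

namespace GraphData
variable {Γ : Type u} [Group Γ] (X : GraphData Γ)

def fd : X.E × K6 → Dt X.S X.T
  | (e, .cs) => .cS (X.src e)
  | (e, .ct) => .cT (X.tgt e)
  | (e, .sc) => .gS (X.src e)
  | (_, .st) => .sp
  | (e, .tc) => .gT (X.tgt e)
  | (_, .ts) => .sm

def fdl : X.E × K6 → Γ
  | (_, .cs) => 1
  | (_, .ct) => 1
  | (e, .sc) => X.a e
  | (e, .st) => (X.a e)⁻¹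
  | (e, .tc) => X.b e
  | (e, .ts) => (X.b e)⁻¹

theorem a_inj {e e' : X.E} (h : X.src e = X.src e') (h' : X.a e = X.a e') : e = e' := by
  rcases X.a_sidon e e' e' e' h rfl (by rw [h']) with h | h <;> exact h

theorem b_inj {e e' : X.E} (h : X.tgt e = X.tgt e') (h' : X.b e = X.b e') : e = e' := by
  rcases X.b_sidon e e' e' e' h rfl (by rw [h']) with h | h <;> exact h

theorem sid1 {ι : Type u} {E : Type u} (s : E → ι) (a : E → Γ)
    (H : ∀ e1 e2 e3 e4, s e1 = s e2 → s e3 = s e4 →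
      (a e1)⁻¹ * a e2 = (a e3)⁻¹ * a e4 → e1 = e2 ∨ e1 = e3)
    {e1 e2 e3 e4 : E} (h1 : s e2 = s e3) (h2 : s e4 = s e1)
    (h : a e1 * (a e2)⁻¹ * a e3 * (a e4)⁻¹ = 1) :
    (s e1 = s e3 ∧ a e1 * (a e2)⁻¹ = 1) ∨ (a e2)⁻¹ * a e3 = 1 := by
  have : (a e2)⁻¹ * a e3 = (a e1)⁻¹ * a e4 := by
    calc (a e2)⁻¹ * a e3 = (a e1)⁻¹ * (a e1 * (a e2)⁻¹ * a e3 * (a e4)⁻¹) * a e4 := by group
      _ = _ := by rw [h]; group
  rcases H e2 e3 e1 e4 h1 h2.symm this with e | e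
  · right; rw [e]; group
  · left; subst e; exact ⟨h1, by group⟩

theorem sid2 {ι : Type u} {E : Type u} (s : E → ι) (a : E → Γ)
    (H : ∀ e1 e2 e3 e4, s e1 = s e2 → s e3 = s e4 →
      (a e1)⁻¹ * a e2 = (a e3)⁻¹ * a e4 → e1 = e2 ∨ e1 = e3)
    {e1 e2 e3 e4 : E} (h1 : s e1 = s e2) (h2 : s e3 = s e4)
    (h : (a e1)⁻¹ * a e2 * (a e3)⁻¹ * a e4 = 1) :
    (a e1)⁻¹ * a e2 = 1 ∨ (s e2 = s e4 ∧ a e2 * (a e3)⁻¹ = 1) := by
  have : (a e1)⁻¹ * a e2 = (a e4)⁻¹ * a e3 := by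
    calc (a e1)⁻¹ * a e2 = ((a e1)⁻¹ * a e2 * (a e3)⁻¹ * a e4) * (a e4)⁻¹ * a e3 := by group
      _ = _ := by rw [h]; group
  rcases H e1 e2 e4 e3 h1 h2.symm this with e | e
  · left; rw [e]; group
  · right; subst e
    refine ⟨h1.symm, ?_⟩
    rw [mul_left_cancel this]; group

def flags : FlagData Γ (Dt X.S X.T) where
  Fl := X.E × K6
  d := X.fd
  dl := X.fdl
  c p := (p.1, p.2.c)
  f p := (p.1, p.2.f)
  r := Dt.r
  col := Dt.col
  cc := by rintro ⟨e, k⟩; cases k <;> rfl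
  ff := by rintro ⟨e, k⟩; cases k <;> rfl
  braid := by rintro ⟨e, k⟩; cases k <;> rfl
  rr := by intro x; cases x <;> rfl
  r_ne := by intro x; cases x <;> simp [Dt.r]
  d_f := by rintro ⟨e, k⟩; cases k <;> rfl
  dl_c := by rintro ⟨e, k⟩; cases k <;> simp [fdl, K6.c]
  col_ne := by rintro ⟨e, k⟩; cases k <;> simp [fd, K6.c, Dt.col]
  uniq := by
    rintro ⟨e, k⟩ ⟨e', k'⟩ h1 h2 h3
    cases k <;> cases k' <;> simp [fd, fdl, K6.c] at h1 h2 h3 ⊢
    · exact X.simple _ _ h1 h2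
    · exact X.simple _ _ h2 h1
    · exact X.a_inj h1 h3
    · exact X.a_inj h2 h3
    · exact X.b_inj h1 h3
    · exact X.b_inj h2 h3
  no4 := by
    rintro ⟨e1, k1⟩ ⟨e2, k2⟩ ⟨e3, k3⟩ ⟨e4, k4⟩ h1 h2 h3 h4 h
    cases k1 <;> cases k2 <;> simp only [fd, K6.c, reduceCtorEq] at h1 <;>
      cases k3 <;> simp only [fd, K6.c, reduceCtorEq] at h2 <;>
      cases k4 <;> simp only [fd, K6.c, reduceCtorEq] at h3 h4 <;>
      simp only [fd, fdl, Dt.cS.injEq, Dt.cT.injEq, Dt.gS.injEq, Dt.gT.injEq, true_and,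
        mul_one, and_true] at h1 h2 h3 h4 h ⊢
    · exact X.no4 e1 e2 e3 e4 h1 h2 h3 h4
    · rcases X.no4 e2 e3 e4 e1 h2 h3 h4 h1 with e | e
      · exact Or.inr e
      · exact Or.inl e.symm
    · exact sid1 X.src X.a X.a_sidon h2 h4 h
    · exact sid2 X.src X.a X.a_sidon h1 h3 h
    · exact sid1 X.tgt X.b X.b_sidon h2 h4 h
    · exact sid2 X.tgt X.b X.b_sidon h1 h3 h

theorem rel (W : Dev X.flags.link) (e : X.E) :
    X.flags.sigma W (.cS (X.src e)) * X.flags.iota W (X.a e) * X.flags.sigma W .sp =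
      X.flags.sigma W (.cT (X.tgt e)) * X.flags.iota W (X.b e) := by
  have := X.flags.sigma_rel W (e, .cs)
  simpa [flags, fd, fdl, K6.c, K6.f] using this

theorem exists_group : ∃ (G : Type u) (_ : Group G) (ι : Γ →* G) (s : G) (tS : X.S → G)
    (tT : X.T → G), Function.Injective ι ∧
      ∀ e, tS (X.src e) * ι (X.a e) * s = tT (X.tgt e) * ι (X.b e) :=
  ⟨_, _, X.flags.iota (dev _), X.flags.sigma (dev _) .sp, fun x => X.flags.sigma (dev _) (.cS x),
    fun y => X.flags.sigma (dev _) (.cT y), X.flags.iota_injective _, X.rel _⟩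

end GraphData

end Vale.Agent.Tri
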