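import Vale.Agent.P194.Dev

/-!
From link data with a group acting freely on darts to a group with the triangle relations.
-/

namespace Vale.Agent.Tri

universe u v

variable {D : Type u}

namespace Dev
variable {L : LinkData D} (W : Dev L)

theorem cases3 (v : W.V) (a : D) : W.down v a ∨ L.IsH W.down v a ∨ L.IsU W.down v a := by
  by_cases h : W.down v a
  · exact Or.inl h
  · by_cases h2 : L.IsH W.down v a
    · exact Or.inr (Or.inl h2)
    · exact Or.inr (Or.inr ⟨h, h2⟩)

theorem down_of_lvl {v : W.V} {a : D} (h : W.lvl (W.step v a).1 < W.lvl v) : W.down v a := by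
  rcases W.cases3 v a with h1 | h1 | h1
  · exact h1
  · have := W.lvl_hor h1; omega
  · have := W.lvl_up h1; omega

theorem H_of_lvl {v : W.V} {a : D} (h : W.lvl (W.step v a).1 = W.lvl v) : L.IsH W.down v a := by
  rcases W.cases3 v a with h1 | h1 | h1
  · have := W.lvl_down h1; omega
  · exact h1
  · have := W.lvl_up h1; omega

theorem U_of_lvl {v : W.V} {a : D} (h : W.lvl v < W.lvl (W.step v a).1) : L.IsU W.down v a := by
  rcases W.cases3 v a with h1 | h1 | h1
  · have := W.lvl_down h1; omega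
  · have := W.lvl_hor h1; omega
  · exact h1

theorem inv1 (v : W.V) (a : D) : (W.step (W.step v a).1 (W.step v a).2).1 = v := by rw [W.inv]

theorem inv2 (v : W.V) (a : D) : (W.step (W.step v a).1 (W.step v a).2).2 = a := by rw [W.inv]

theorem tri1 (v : W.V) {a b : D} (h : L.adj a b) :
    (W.step (W.step v a).1 (L.kap a (W.step v a).2 b)).1 = (W.step v b).1 := by rw [W.tri v a b h]

theorem tri2 (v : W.V) {a b : D} (h : L.adj a b) :
    (W.step (W.step v a).1 (L.kap a (W.step v a).2 b)).2 = L.kap b (W.step v b).2 a := by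
  rw [W.tri v a b h]

section address
variable {G : Type v} [Group G] (val : D → D → G)

open Classical in
noncomputable def addrN : ℕ → W.V → G
  | 0, _ => 1
  | n + 1, v => if h : ∃ a, W.down v a then
      addrN n (W.step v h.choose).1 * val (W.step v h.choose).2 h.choose else 1

theorem exists_address (h1 : ∀ a a', L.rho a a' → val a' a = (val a a')⁻¹)
    (h2 : ∀ a a' b b', L.rho a a' → L.rho b b' → L.adj a b →
      val a a' * val (L.kap a a' b) (L.kap b b' a) = val b b') :
    ∃ F : W.V → G, F W.root = 1 ∧ ∀ v a, F (W.step v a).1 = F v * val a (W.step v a).2 := by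
  let F : W.V → G := fun v => W.addrN val (W.lvl v) v
  let C : W.V → D → Prop := fun v a => F (W.step v a).1 = F v * val a (W.step v a).2
  have symm : ∀ v a, C (W.step v a).1 (W.step v a).2 → C v a := by
    intro v a h
    simp only [C] at h ⊢
    rw [W.inv1, W.inv2, h1 _ _ (W.rho v a)] at h
    rw [h]; group
  have tri : ∀ v a b, L.adj a b → C v a → C (W.step v a).1 (L.kap a (W.step v a).2 b) →
      C v b := by
    intro v a b hab ha hb
    simp only [C] at ha hb ⊢
    rw [W.tri1 v hab, W.tri2 v hab, ha, mul_assoc, h2 _ _ _ _ (W.rho v a) (W.rho v b) hab] at hb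
    exact hb
  have main : ∀ n, ∀ v, W.lvl v = n → ∀ a, (W.down v a ∨ L.IsH W.down v a) → C v a := by
    intro n
    induction n with
    | zero =>
      intro v hv a ha
      rcases ha with ha | ⟨_, b, ha, _⟩ <;> (have := W.lvl_down ha; omega)
    | succ n ih =>
      have dn : ∀ v, W.lvl v = n + 1 → ∀ a, W.down v a → C v a := by
        intro v hv a ha
        have hex : ∃ a, W.down v a := ⟨a, ha⟩
        have h0 := hex.choose_spec
        have c0 : C v hex.choose := by
          have hl := W.lvl_down h0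
          have e : W.lvl (W.step v hex.choose).1 = n := by omega
          simp only [C, F]
          rw [hv, e, addrN, dif_pos hex, h1 _ _ (W.rho v _)]
          group
        by_cases e : hex.choose = a
        · exact e ▸ c0
        · have hab := W.clique h0 ha e
          refine tri v _ a hab c0 (ih _ ?_ _ (Or.inr (W.H_of_lvl ?_)))
          · have := W.lvl_down h0; omega
          · rw [W.tri1 v hab]
            have := W.lvl_down h0; have := W.lvl_down ha; omega
      intro v hv b hb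
      rcases hb with hb | hb
      · exact dn v hv b hb
      · obtain ⟨_, a, ha, hab⟩ := id hb
        refine tri v a b hab (dn v hv a ha) (symm _ _ (dn _ ?_ _ (W.down_of_lvl ?_)))
        · rw [W.tri1 v hab, W.lvl_hor hb, hv]
        · rw [W.inv1, W.tri1 v hab, W.lvl_hor hb]
          have := W.lvl_down ha; omega
  refine ⟨F, ?_, fun v a => ?_⟩
  · simp only [F]; rw [W.lvl_root]; rfl
  · rcases W.cases3 v a with h | h | h
    · exact main _ v rfl a (Or.inl h)
    · exact main _ v rfl a (Or.inr h)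
    · refine symm _ _ (main _ _ rfl _ (Or.inl (W.down_of_lvl ?_)))
      rw [W.inv1, W.lvl_up h]; omega

end address
end Dev

/-- Triangles given by flags, with a vertex group `Γ`. -/
structure FlagData (Γ : Type u) [Group Γ] (D0 : Type u) where
  Fl : Type u
  d : Fl → D0
  dl : Fl → Γ
  c : Fl → Fl
  f : Fl → Fl
  r : D0 → D0
  col : D0 → Bool
  cc : ∀ p, c (c p) = p
  ff : ∀ p, f (f p) = p
  braid : ∀ p, c (f (c p)) = f (c (f p))
  rr : ∀ x, r (r x) = x
  r_ne : ∀ x, r x ≠ x
  d_f : ∀ p, d (f p) = r (d p)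
  dl_c : ∀ p, dl (c p) = (dl p)⁻¹
  col_ne : ∀ p, col (d p) ≠ col (d (c p))
  uniq : ∀ p q, d p = d q → d (c p) = d (c q) → dl p = dl q → p = q
  no4 : ∀ p1 p2 p3 p4, d (c p1) = d p2 → d (c p2) = d p3 → d (c p3) = d p4 → d (c p4) = d p1 →
    dl p1 * dl p2 * dl p3 * dl p4 = 1 →
    (d p1 = d p3 ∧ dl p1 * dl p2 = 1) ∨ (d p2 = d p4 ∧ dl p2 * dl p3 = 1)

namespace FlagData
variable {Γ : Type u} [Group Γ] {D0 : Type u} (T : FlagData Γ D0)

def Cor (a b : Γ × D0) (p : T.Fl) : Prop := a.2 = T.d p ∧ b.2 = T.d (T.c p) ∧ b.1 = a.1 * T.dl p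

theorem Cor_symm {a b : Γ × D0} {p : T.Fl} (h : T.Cor a b p) : T.Cor b a (T.c p) :=
  ⟨h.2.1, by rw [T.cc, h.1], by rw [T.dl_c, h.2.2]; group⟩

theorem Cor_unique {a b : Γ × D0} {p q : T.Fl} (h : T.Cor a b p) (h' : T.Cor a b q) : p = q :=
  T.uniq p q (h.1.symm.trans h'.1) (h.2.1.symm.trans h'.2.1)
    (mul_left_cancel (h.2.2.symm.trans h'.2.2))

open Classical in
noncomputable def kap (a a' b : Γ × D0) : Γ × D0 :=
  if h : ∃ p, T.Cor a b p then (a'.1 * T.dl (T.f h.choose), T.d (T.c (T.f h.choose))) else a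

theorem kap_eq {a b : Γ × D0} {p : T.Fl} (h : T.Cor a b p) (a' : Γ × D0) :
    T.kap a a' b = (a'.1 * T.dl (T.f p), T.d (T.c (T.f p))) := by
  unfold kap
  rw [dif_pos ⟨p, h⟩, T.Cor_unique (Exists.choose_spec (⟨p, h⟩ : ∃ p, T.Cor a b p)) h]

theorem Cor_kap {a a' b : Γ × D0} {p : T.Fl} (h : T.Cor a b p) (hr : a'.2 = T.r a.2) :
    T.Cor a' (T.kap a a' b) (T.f p) := by
  rw [T.kap_eq h]
  exact ⟨by rw [hr, T.d_f, h.1], rfl, rfl⟩

noncomputable def link : LinkData (Γ × D0) where
  adj a b := ∃ p, T.Cor a b p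
  rho a a' := a'.2 = T.r a.2
  kap := T.kap
  col a := T.col a.2
  rev a := (1, T.r a.2)
  adj_symm := fun ⟨_, h⟩ => ⟨_, T.Cor_symm h⟩
  adj_col := fun ⟨p, h⟩ => by
    show T.col _ ≠ T.col _
    rw [h.1, h.2.1]; exact T.col_ne p
  no4 := by
    rintro a b c d ⟨p1, h1⟩ ⟨p2, h2⟩ ⟨p3, h3⟩ ⟨p4, h4⟩
    have e : T.dl p1 * T.dl p2 * T.dl p3 * T.dl p4 = 1 := by
      have := h4.2.2
      rw [h3.2.2, h2.2.2, h1.2.2] at this
      have h5 : a.1 * (T.dl p1 * T.dl p2 * T.dl p3 * T.dl p4) = a.1 * 1 := by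
        rw [mul_one]; conv_rhs => rw [this]
        group
      exact mul_left_cancel h5
    rcases T.no4 p1 p2 p3 p4 (h1.2.1.symm.trans h2.1) (h2.2.1.symm.trans h3.1)
      (h3.2.1.symm.trans h4.1) (h4.2.1.symm.trans h1.1) e with ⟨e1, e2⟩ | ⟨e1, e2⟩
    · left
      refine Prod.ext ?_ (by rw [h1.1, h3.1, e1])
      rw [h2.2.2, h1.2.2, mul_assoc, e2, mul_one]
    · right
      refine Prod.ext ?_ (by rw [h2.1, h4.1, e1])
      rw [h3.2.2, h2.2.2, mul_assoc, e2, mul_one]
  rho_symm := fun {a b} h => by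
    show a.2 = T.r b.2
    rw [h, T.rr]
  rho_irrefl := fun a h => T.r_ne _ h.symm
  rho_rev := fun _ => rfl
  k1 := fun hr ⟨_, h⟩ => ⟨_, T.Cor_kap h hr⟩
  k2 := by
    rintro a a' b hr ⟨p, h⟩
    rw [T.kap_eq (T.Cor_kap h hr), T.ff, ← h.2.1, ← h.2.2]
  k3 := by
    rintro a a' b b' hr hr' ⟨p, h⟩
    show (T.kap b b' a).2 = T.r (T.kap a a' b).2
    rw [T.kap_eq h, T.kap_eq (T.Cor_symm h), ← T.d_f, T.braid]
  k4 := by
    rintro a a' b b' hr hr' ⟨p, h⟩
    rw [T.kap_eq (T.Cor_symm (T.Cor_kap h hr)), T.kap_eq (T.Cor_symm h), ← T.braid, T.cc, T.dl_c,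
      T.d_f, ← h.2.1]
    refine Prod.ext ?_ (Eq.symm hr')
    simp

variable (W : Dev T.link)

/-- right multiplication by an element of the vertex group -/
def mu (g : Γ) : Equiv.Perm (W.V × Γ) where
  toFun x := (x.1, x.2 * g)
  invFun x := (x.1, x.2 * g⁻¹)
  left_inv x := by simp
  right_inv x := by simp

theorem step_snd (v : W.V) (a : Γ × D0) : W.step v a = ((W.step v a).1, ((W.step v a).2.1, T.r a.2)) := by
  have : (W.step v a).2.2 = T.r a.2 := W.rho v a
  rw [← this]

def sigFun (d : D0) (x : W.V × Γ) : W.V × Γ := ((W.step x.1 (x.2, d)).1, (W.step x.1 (x.2, d)).2.1)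

theorem sigFun_inv (d : D0) (x : W.V × Γ) : T.sigFun W (T.r d) (T.sigFun W d x) = x := by
  have h := W.inv x.1 (x.2, d)
  have h2 : (W.step x.1 (x.2, d)).2 = ((W.step x.1 (x.2, d)).2.1, T.r d) :=
    Prod.ext rfl (W.rho x.1 (x.2, d))
  rw [h2] at h
  simp only [sigFun]
  rw [h]

/-- moving along a dart -/
def sig (d : D0) : Equiv.Perm (W.V × Γ) where
  toFun := T.sigFun W d
  invFun := T.sigFun W (T.r d)
  left_inv := T.sigFun_inv W d
  right_inv x := by have := T.sigFun_inv W (T.r d) x; rwa [T.rr] at this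

/-- the ambient group -/
abbrev Amb := (Equiv.Perm (W.V × Γ))ᵐᵒᵖ

def iota : Γ →* T.Amb W where
  toFun g := MulOpposite.op (T.mu W g)
  map_one' := by
    rw [← MulOpposite.op_one]; congr 1; ext x <;> simp [mu]
  map_mul' g h := by
    rw [← MulOpposite.op_mul]; congr 1; ext x <;> simp [mu, mul_assoc]

def sigma (d : D0) : T.Amb W := MulOpposite.op (T.sig W d)

/-- the right action -/
def act (x : W.V × Γ) (g : T.Amb W) : W.V × Γ := g.unop x

theorem act_mul (x : W.V × Γ) (g h : T.Amb W) : T.act W x (g * h) = T.act W (T.act W x g) h := rfl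

theorem act_one (x : W.V × Γ) : T.act W x 1 = x := rfl

theorem act_iota (x : W.V × Γ) (g : Γ) : T.act W x (T.iota W g) = (x.1, x.2 * g) := rfl

theorem act_sigma (x : W.V × Γ) (d : D0) :
    T.act W x (T.sigma W d) = ((W.step x.1 (x.2, d)).1, (W.step x.1 (x.2, d)).2.1) := rfl

theorem act_ext {g h : T.Amb W} (e : ∀ x, T.act W x g = T.act W x h) : g = h :=
  MulOpposite.unop_injective (Equiv.ext e)

theorem iota_injective : Function.Injective (T.iota W) := by
  intro g h e
  have := congrArg (T.act W (W.root, 1)) e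
  simpa [act_iota] using this

theorem sigma_r (d : D0) : T.sigma W (T.r d) = (T.sigma W d)⁻¹ := by
  apply eq_inv_of_mul_eq_one_right
  apply T.act_ext
  intro x
  exact T.sigFun_inv W d x

theorem sigma_rel (p : T.Fl) :
    T.sigma W (T.d p) * T.iota W (T.dl (T.f p)) * T.sigma W (T.d (T.c (T.f p))) =
      T.iota W (T.dl p) * T.sigma W (T.d (T.c p)) * T.iota W (T.dl (T.f (T.c p))) := by
  apply T.act_ext
  rintro ⟨v, g⟩
  have hc : T.Cor (g, T.d p) (g * T.dl p, T.d (T.c p)) p := ⟨rfl, rfl, rfl⟩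
  have h := W.tri v (g, T.d p) (g * T.dl p, T.d (T.c p)) ⟨p, hc⟩
  change W.step _ (T.kap _ _ _) = (_, T.kap _ _ _) at h
  rw [T.kap_eq hc, T.kap_eq (T.Cor_symm hc)] at h
  simp only [act_mul, act_iota, act_sigma]
  rw [h]

end FlagData

end Vale.Agent.Tri
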